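import Mathlib

/-!
P079: uniformly convex spaces, nested closed convex sets and limits along a free ultrafilter.
-/

namespace Vale.Agent.P079

open Filter Topology Set

noncomputable section

universe u

/-- A modulus of uniform convexity, in a form that passes to ultrapowers. -/
def Modulus (δ : ℝ → ℝ) (Y : Type u) [SeminormedAddCommGroup Y] : Prop :=
  (∀ ε, 0 < ε → 0 < δ ε) ∧ ∀ ε, 0 < ε → ∀ M, 0 < M → ∀ x y : Y, ‖x‖ ≤ M → ‖y‖ ≤ M →
    ε * M < ‖x - y‖ → ‖x + y‖ ≤ (2 - δ ε) * M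

lemma exists_modulus (Y : Type u) [NormedAddCommGroup Y] [NormedSpace ℝ Y] [UniformConvexSpace Y] :
    ∃ δ, Modulus δ Y := by
  classical
  have h : ∀ ε : ℝ, ∃ δ, 0 < δ ∧ (0 < ε → ∀ ⦃x : Y⦄, ‖x‖ ≤ 1 → ∀ ⦃y⦄, ‖y‖ ≤ 1 → ε ≤ ‖x - y‖ →
      ‖x + y‖ ≤ 2 - δ) := by
    intro ε
    by_cases hε : 0 < ε
    · obtain ⟨δ, hδ, h⟩ := exists_forall_closed_ball_dist_add_le_two_sub Y hε
      exact ⟨δ, hδ, fun _ => h⟩
    · exact ⟨1, one_pos, fun h => absurd h hε⟩
  choose δ hδ h using h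
  refine ⟨δ, fun ε _ => hδ ε, fun ε hε M hM x y hx hy hxy => ?_⟩
  have hn : ∀ z : Y, ‖M⁻¹ • z‖ = M⁻¹ * ‖z‖ := fun z =>
    norm_smul_of_nonneg (inv_nonneg.mpr hM.le) z
  have := h ε hε (x := M⁻¹ • x) (by rw [hn, inv_mul_le_one₀ hM]; exact hx)
    (y := M⁻¹ • y) (by rw [hn, inv_mul_le_one₀ hM]; exact hy)
    (by rw [← smul_sub, hn, le_inv_mul_iff₀ hM]; linarith)
  rw [← smul_add, hn, inv_mul_le_iff₀ hM] at this
  linarith

/-- The constant by which a monotone pair beats the triangle inequality. -/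
def rho (δ : ℝ → ℝ) : ℝ := max (3 / 2) (2 - δ (1 / 2))

lemma rho_lt {δ : ℝ → ℝ} {Y : Type u} [SeminormedAddCommGroup Y] (h : Modulus δ Y) : rho δ < 2 :=
  max_lt (by norm_num) (by have := h.1 (1 / 2) (by norm_num); linarith)

lemma rho_pos (δ : ℝ → ℝ) : 0 < rho δ := lt_max_of_lt_left (by norm_num)

lemma norm_add_le_rho {δ : ℝ → ℝ} {Y : Type u} [SeminormedAddCommGroup Y] (h : Modulus δ Y)
    {A B : Y} {M : ℝ} (hM : 0 ≤ M) (hA : ‖A‖ ≤ M) (hB : ‖B‖ ≤ M) (hmono : ‖A‖ ≤ ‖A - B‖) :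
    ‖A + B‖ ≤ rho δ * M := by
  by_cases hc : ‖A - B‖ ≤ 1 / 2 * M
  · have h1 : ‖A + B‖ ≤ ‖A‖ + ‖B‖ := norm_add_le A B
    have h2 : 3 / 2 * M ≤ rho δ * M := mul_le_mul_of_nonneg_right (le_max_left _ _) hM
    linarith
  · rcases hM.eq_or_lt with rfl | hM'
    · rw [mul_zero]; linarith [norm_add_le A B]
    · exact (h.2 (1 / 2) (by norm_num) M hM' A B hA hB (not_le.mp hc)).trans
        (mul_le_mul_of_nonneg_right (le_max_right _ _) hM)

variable {Y : Type u} [NormedAddCommGroup Y] [NormedSpace ℝ Y] [CompleteSpace Y] {δ : ℝ → ℝ}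

/-- Directed families of nonempty bounded closed convex sets meet. -/
lemma exists_common_point (hY : Modulus δ Y) {ι : Type*} [Nonempty ι] (C : ι → Set Y)
    (hne : ∀ i, (C i).Nonempty) (hcl : ∀ i, IsClosed (C i)) (hcv : ∀ i, Convex ℝ (C i))
    (hdir : ∀ i j, ∃ k, C k ⊆ C i ∧ C k ⊆ C j) (R : ℝ) (hR : ∀ i, ∀ x ∈ C i, ‖x‖ ≤ R) :
    ∃ p, ∀ i, p ∈ C i := by
  classical
  set d : ι → ℝ := fun i => Metric.infDist 0 (C i) with hd
  have hdR : ∀ i, d i ≤ R := fun i => by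
    obtain ⟨x, hx⟩ := hne i
    exact (Metric.infDist_le_dist_of_mem hx).trans (by simpa using hR i x hx)
  have hbdd : BddAbove (Set.range d) := ⟨R, by rintro _ ⟨i, rfl⟩; exact hdR i⟩
  set r := iSup d with hr
  have hdr : ∀ i, d i ≤ r := fun i => le_ciSup hbdd i
  have hr0 : 0 ≤ r := Metric.infDist_nonneg.trans (hdr (Classical.arbitrary ι))
  rcases hr0.eq_or_lt with h0 | hrpos
  · refine ⟨0, fun i => ?_⟩
    have hi : d i = 0 := le_antisymm (h0 ▸ hdr i) Metric.infDist_nonneg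
    rwa [(hcl i).mem_iff_infDist_zero (hne i)]
  -- near minimal points of small sets are close
  have key : ∀ ε, 0 < ε → ∃ η, 0 < η ∧ η ≤ ε ∧ ∀ i, r - η < d i → ∀ x ∈ C i, ∀ y ∈ C i,
      ‖x‖ ≤ r + η → ‖y‖ ≤ r + η → ‖x - y‖ ≤ ε := by
    intro ε hε
    set e := ε / (2 * r) with he
    have he0 : 0 < e := by positivity
    have hδe := hY.1 e he0
    set η := min (min ε r) (δ e * r / 4) with hη
    have hη0 : 0 < η := lt_min (lt_min hε hrpos) (by positivity)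
    refine ⟨η, hη0, (min_le_left _ _).trans (min_le_left _ _), fun i hi x hx y hy hxn hyn => ?_⟩
    by_contra hxy
    push Not at hxy
    have hη1 : η ≤ r := (min_le_left _ _).trans (min_le_right _ _)
    have hη2 : η ≤ δ e * r / 4 := min_le_right _ _
    have hlt : e * (r + η) < ‖x - y‖ := by
      have : e * (r + η) ≤ e * (2 * r) := mul_le_mul_of_nonneg_left (by linarith) he0.le
      have h2 : e * (2 * r) = ε := by rw [he]; field_simp
      linarith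
    have h1 := hY.2 e he0 (r + η) (by linarith) x y hxn hyn hlt
    have hmid : (1 / 2 : ℝ) • x + (1 / 2 : ℝ) • y ∈ C i :=
      hcv i hx hy (by norm_num) (by norm_num) (by norm_num)
    have h2 : d i ≤ ‖(1 / 2 : ℝ) • x + (1 / 2 : ℝ) • y‖ :=
      (Metric.infDist_le_dist_of_mem hmid).trans (by rw [dist_zero_left])
    rw [← smul_add, norm_smul_of_nonneg (by norm_num : (0 : ℝ) ≤ 1 / 2)] at h2
    have h3 : 0 < δ e * η := mul_pos hδe hη0
    have h4 : δ e * η ≤ δ e * r := mul_le_mul_of_nonneg_left hη1 hδe.le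
    nlinarith
  have hex : ∀ m : ℕ, ∃ i, r - 1 / (m + 1 : ℝ) < d i := fun m =>
    exists_lt_of_lt_ciSup (by have : (0 : ℝ) < 1 / (m + 1) := by positivity
                              linarith)
  choose i hi using hex
  have hpt : ∀ (m : ℕ) (j : ι), ∃ p, p ∈ C (i m) ∧ p ∈ C j ∧ ‖p‖ ≤ r + 1 / (m + 1 : ℝ) := by
    intro m j
    obtain ⟨k, hk1, hk2⟩ := hdir (i m) j
    have hlt : Metric.infDist 0 (C k) < r + 1 / (m + 1 : ℝ) :=
      lt_of_le_of_lt (hdr k) (lt_add_of_pos_right r (by positivity))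
    obtain ⟨p, hp, hp'⟩ := (Metric.infDist_lt_iff (hne k)).mp hlt
    exact ⟨p, hk1 hp, hk2 hp, by rw [dist_zero_left] at hp'; exact hp'.le⟩
  have close : ∀ ε, 0 < ε → ∃ M : ℕ, ∀ m, M ≤ m → ∀ m', M ≤ m' → ∀ p q,
      (p ∈ C (i m) ∧ ‖p‖ ≤ r + 1 / (m + 1 : ℝ)) → (q ∈ C (i m') ∧ ‖q‖ ≤ r + 1 / (m' + 1 : ℝ)) →
      ‖p - q‖ ≤ ε := by
    intro ε hε
    obtain ⟨η, hη, -, hkey⟩ := key (ε / 2) (half_pos hε)
    obtain ⟨M, hM⟩ := exists_nat_one_div_lt hη
    have hsmall : ∀ m, M ≤ m → 1 / (m + 1 : ℝ) < η := fun m hm =>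
      lt_of_le_of_lt (by gcongr) hM
    refine ⟨M, fun m hm m' hm' p q hp hq => ?_⟩
    obtain ⟨k, hk1, hk2⟩ := hdir (i m) (i m')
    obtain ⟨s, hs, hs'⟩ := (Metric.infDist_lt_iff (hne k)).mp
      (lt_of_le_of_lt (hdr k) (lt_add_of_pos_right r hη))
    rw [dist_zero_left] at hs'
    have a1 := hkey (i m) (by linarith [hi m, hsmall m hm]) p hp.1 s (hk1 hs)
      (by linarith [hp.2, hsmall m hm]) hs'.le
    have a2 := hkey (i m') (by linarith [hi m', hsmall m' hm']) s (hk2 hs) q hq.1 hs'.le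
      (by linarith [hq.2, hsmall m' hm'])
    linarith [norm_sub_le_norm_sub_add_norm_sub p s q]
  choose p hp1 hp2 hp3 using hpt
  set j0 := Classical.arbitrary ι
  have hcau : CauchySeq fun m => p m j0 := by
    refine Metric.cauchySeq_iff.mpr fun ε hε => ?_
    obtain ⟨M, hM⟩ := close (ε / 2) (half_pos hε)
    refine ⟨M, fun m hm m' hm' => ?_⟩
    rw [dist_eq_norm]
    exact lt_of_le_of_lt (hM m hm m' hm' _ _ ⟨hp1 _ _, hp3 _ _⟩ ⟨hp1 _ _, hp3 _ _⟩) (half_lt_self hε)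
  obtain ⟨P, hP⟩ := cauchySeq_tendsto_of_complete hcau
  refine ⟨P, fun j => (hcl j).mem_of_tendsto (b := atTop) (f := fun m => p m j) ?_
    (Eventually.of_forall fun m => hp2 m j)⟩
  refine Metric.tendsto_atTop.mpr fun ε hε => ?_
  obtain ⟨M1, hM1⟩ := close (ε / 3) (by linarith)
  obtain ⟨M2, hM2⟩ := Metric.tendsto_atTop.mp hP (ε / 3) (by linarith)
  refine ⟨max M1 M2, fun m hm => ?_⟩
  have a1 := hM1 m (le_of_max_le_left hm) m (le_of_max_le_left hm) (p m j) (p m j0)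
    ⟨hp1 _ _, hp3 _ _⟩ ⟨hp1 _ _, hp3 _ _⟩
  have a2 := hM2 m (le_of_max_le_right hm)
  rw [← dist_eq_norm] at a1
  linarith [dist_triangle (p m j) (p m j0) P]

/-- The free ultrafilter. -/
def uf : Ultrafilter ℕ := Filter.hyperfilter ℕ

lemma uf_le : (uf : Filter ℕ) ≤ atTop := Nat.cofinite_eq_atTop ▸ Filter.hyperfilter_le_cofinite

/-- The limit of a real sequence along the ultrafilter. -/
def ulim (g : ℕ → ℝ) : ℝ := limUnder (uf : Filter ℕ) g

lemma tendsto_ulim {g : ℕ → ℝ} {R : ℝ} (h : ∀ n, |g n| ≤ R) :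
    Tendsto g (uf : Filter ℕ) (𝓝 (ulim g)) := by
  have hmem : (uf.map g : Filter ℝ) ≤ 𝓟 (Icc (-R) R) := by
    rw [le_principal_iff]
    exact Filter.mem_map.mpr (Filter.univ_mem' fun n => abs_le.mp (h n))
  obtain ⟨L, -, hL⟩ := isCompact_Icc.ultrafilter_le_nhds (uf.map g) hmem
  exact tendsto_nhds_limUnder ⟨L, hL⟩

lemma ulim_eq {g : ℕ → ℝ} {L : ℝ} (h : Tendsto g (uf : Filter ℕ) (𝓝 L)) : ulim g = L :=
  h.limUnder_eq

/-- Bounded sequences have weak limits along the ultrafilter. -/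
lemma exists_weakLimit (hY : Modulus δ Y) (f : ℕ → Y) {R : ℝ} (hf : ∀ n, ‖f n‖ ≤ R) :
    ∃ p : Y, (∀ φ : StrongDual ℝ Y, φ p = ulim fun n => φ (f n)) ∧
      ∀ C : Set Y, IsClosed C → Convex ℝ C → (∀ᶠ n in (uf : Filter ℕ), f n ∈ C) → p ∈ C := by
  let ι := {A : Set ℕ // A ∈ uf}
  haveI : Nonempty ι := ⟨⟨univ, univ_mem⟩⟩
  let C : ι → Set Y := fun A => closure (convexHull ℝ (f '' A.1))
  have hsub : ∀ (A : ι) (D : Set Y), IsClosed D → Convex ℝ D → f '' A.1 ⊆ D → C A ⊆ D :=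
    fun A D hD hDc h => closure_minimal (convexHull_min h hDc) hD
  obtain ⟨p, hp⟩ := exists_common_point hY C
    (fun A => (((Ultrafilter.nonempty_of_mem A.2).image f).convexHull).closure)
    (fun A => isClosed_closure) (fun A => (convex_convexHull ℝ _).closure)
    (fun A B => ⟨⟨A.1 ∩ B.1, inter_mem A.2 B.2⟩,
      closure_mono (convexHull_mono (image_mono inter_subset_left)),
      closure_mono (convexHull_mono (image_mono inter_subset_right))⟩) R
    (fun A x hx => by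
      have h := hsub A (Metric.closedBall 0 R) Metric.isClosed_closedBall (convex_closedBall 0 R)
        (by rintro _ ⟨n, -, rfl⟩; simpa using hf n) hx
      simpa using h)
  have hprop : ∀ D : Set Y, IsClosed D → Convex ℝ D → (∀ᶠ n in (uf : Filter ℕ), f n ∈ D) → p ∈ D :=
    fun D hD hDc h => hsub ⟨{n | f n ∈ D}, h⟩ D hD hDc (by rintro _ ⟨n, hn, rfl⟩; exact hn) (hp _)
  refine ⟨p, fun φ => ?_, hprop⟩
  have hL := tendsto_ulim (g := fun n => φ (f n)) (R := ‖φ‖ * R) fun n =>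
    (φ.le_opNorm (f n)).trans (mul_le_mul_of_nonneg_left (hf n) (norm_nonneg _))
  refine eq_of_forall_dist_le fun ε hε => ?_
  exact hprop {y | dist (φ y) (ulim fun n => φ (f n)) ≤ ε}
    (isClosed_le (φ.continuous.dist continuous_const) continuous_const)
    ((convex_closedBall (ulim fun n => φ (f n)) ε).linear_preimage (φ : Y →ₗ[ℝ] ℝ))
    (hL (Metric.closedBall_mem_nhds _ hε))

end

end Vale.Agent.P079
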