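import Vale.Agent.P079.Convex

/-!
P079: minimal invariant closed convex sets in uniformly convex spaces.
-/

namespace Vale.Agent.P079

open Set

universe u

/-- A bounded closed convex invariant set contains a minimal one. -/
theorem exists_minimal {Y : Type u} [NormedAddCommGroup Y] [NormedSpace ℝ Y] [CompleteSpace Y]
    {δ : ℝ → ℝ} (hY : Modulus δ Y) (C : Set Y) (hne : C.Nonempty) (hcl : IsClosed C)
    (hcv : Convex ℝ C) (R : ℝ) (hR : ∀ x ∈ C, ‖x‖ ≤ R) (T : Y → Y) (hT : Set.MapsTo T C C) :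
    ∃ K ⊆ C, K.Nonempty ∧ IsClosed K ∧ Convex ℝ K ∧ Set.MapsTo T K K ∧
      ∀ L ⊆ K, L.Nonempty → IsClosed L → Convex ℝ L → Set.MapsTo T L L → L = K := by
  classical
  set S : Set (Set Y) :=
    {D | D ⊆ C ∧ D.Nonempty ∧ IsClosed D ∧ Convex ℝ D ∧ MapsTo T D D}
  obtain ⟨K, -, hK⟩ := zorn_superset_nonempty S (fun c hcS hc hcne => by
    have : Nonempty c := hcne.to_subtype
    obtain ⟨p, hp⟩ := exists_common_point hY (fun D : c => (D : Set Y))
      (fun D => (hcS D.2).2.1) (fun D => (hcS D.2).2.2.1) (fun D => (hcS D.2).2.2.2.1)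
      (fun D D' => (hc.total D.2 D'.2).elim (fun h => ⟨D, subset_rfl, h⟩)
        (fun h => ⟨D', h, subset_rfl⟩))
      R (fun D x hx => hR x ((hcS D.2).1 hx))
    obtain ⟨D, hD⟩ := hcne
    exact ⟨⋂₀ c, ⟨(sInter_subset_of_mem hD).trans (hcS hD).1, ⟨p, fun E hE => hp ⟨E, hE⟩⟩,
      isClosed_sInter fun E hE => (hcS hE).2.2.1, convex_sInter fun E hE => (hcS hE).2.2.2.1,
      fun x hx E hE => (hcS hE).2.2.2.2 (hx E hE)⟩, fun s hs => sInter_subset_of_mem hs⟩)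
    C ⟨subset_rfl, hne, hcl, hcv, hT⟩
  obtain ⟨⟨hsub, hn, hc, hv, hm⟩, hmin⟩ := hK
  exact ⟨K, hsub, hn, hc, hv, hm, fun L hL hLn hLc hLv hLT =>
    hL.antisymm (hmin ⟨hL.trans hsub, hLn, hLc, hLv, hLT⟩ hL)⟩

end Vale.Agent.P079
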