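import Vale.Agent.P079.Tower
import Vale.Agent.P079.Minimal

/-!
P079: every Banach space linearly homeomorphic to a uniformly convex one has the fixed point
property for nonexpansive maps in its own norm.
-/

namespace Vale.Agent.P079

open Set

noncomputable section

universe u v

/-- The fixed point property for a space with an equivalent uniformly convex norm. -/
theorem fixed_point_of_equiv {X : Type u} [NormedAddCommGroup X] [NormedSpace ℝ X] {Y : Type v}
    [NormedAddCommGroup Y] [NormedSpace ℝ Y] [CompleteSpace Y] [UniformConvexSpace Y]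
    (e : X ≃L[ℝ] Y) (C : Set X) (T : X → X) (hne : C.Nonempty) (hcl : IsClosed C)
    (hcv : Convex ℝ C) (hbd : Bornology.IsBounded C) (hT : MapsTo T C C)
    (hnx : ∀ p ∈ C, ∀ q ∈ C, ‖T p - T q‖ ≤ ‖p - q‖) : ∃ p ∈ C, T p = p := by
  obtain ⟨R0, hR0⟩ := hbd.exists_norm_le
  set C' : Set Y := e.symm ⁻¹' C
  set T' : Y → Y := fun y => e (T (e.symm y))
  have hT' : MapsTo T' C' C' := fun y hy => by
    change e.symm (e (T (e.symm y))) ∈ C
    rw [e.symm_apply_apply]
    exact hT hy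
  have hne' : C'.Nonempty := by
    obtain ⟨p, hp⟩ := hne
    exact ⟨e p, by change e.symm (e p) ∈ C; rwa [e.symm_apply_apply]⟩
  have hcv' : Convex ℝ C' := hcv.linear_preimage (e.symm : Y →L[ℝ] X).toLinearMap
  set c1 := ‖(e : X →L[ℝ] Y)‖ + 1 with hc1
  set c2 := ‖(e.symm : Y →L[ℝ] X)‖ with hc2
  have hlow : ∀ y : Y, ‖y‖ ≤ c1 * ‖e.symm y‖ := fun y => by
    have h1 := (e : X →L[ℝ] Y).le_opNorm (e.symm y)
    simp only [ContinuousLinearEquiv.coe_coe, e.apply_symm_apply] at h1
    exact h1.trans (mul_le_mul_of_nonneg_right (by rw [hc1]; linarith) (norm_nonneg _))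
  have hup : ∀ y : Y, ‖e.symm y‖ ≤ c2 * ‖y‖ := fun y => (e.symm : Y →L[ℝ] X).le_opNorm y
  have hc1pos : 0 < c1 := by rw [hc1]; positivity
  have hbdd' : ∀ y ∈ C', ‖y‖ ≤ c1 * R0 := fun y hy =>
    (hlow y).trans (mul_le_mul_of_nonneg_left (hR0 _ hy) hc1pos.le)
  obtain ⟨δ, hδ⟩ := exists_modulus Y
  obtain ⟨K, hKC, hKne, hKcl, hKcv, hKT, hmin⟩ := exists_minimal hδ C' hne'
    (hcl.preimage e.symm.continuous) hcv' _ hbdd' T' hT'
  obtain ⟨x0, hx0⟩ := hKne
  have hnxK : ∀ y ∈ K, ∀ z ∈ K, ‖e.symm (T' y - T' z)‖ ≤ ‖e.symm (y - z)‖ := fun y hy z hz => by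
    simp only [T', map_sub, e.symm_apply_apply]
    exact hnx _ (hKC hy) _ (hKC hz)
  by_cases hall : ∀ y ∈ K, e.symm (y - x0) = 0
  · refine ⟨e.symm x0, hKC hx0, ?_⟩
    have h := hall _ (hKT hx0)
    simpa [T', map_sub, sub_eq_zero] using h
  push Not at hall
  obtain ⟨y0, hy0, hy00⟩ := hall
  set A : Set ℝ := {d | ∃ p ∈ K, ∃ q ∈ K, d = ‖e.symm (p - q)‖}
  have hA : BddAbove A := by
    refine ⟨R0 + R0, ?_⟩
    rintro d ⟨p, hp, q, hq, rfl⟩
    rw [map_sub]
    exact norm_sub_le_of_le (hR0 _ (hKC hp)) (hR0 _ (hKC hq))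
  set D := sSup A
  have hle : ∀ p ∈ K, ∀ q ∈ K, ‖e.symm (p - q)‖ ≤ D := fun p hp q hq =>
    le_csSup hA ⟨p, hp, q, hq, rfl⟩
  have hD : 0 < D := lt_of_lt_of_le (norm_pos_iff.mpr hy00) (hle y0 hy0 x0 hx0)
  let S : Sys.{v} (1 / (c1 * D)) (c2 / D) δ :=
    { E := Y
      N := fun y => ‖e.symm y‖ / D
      N_add := fun y z => by
        rw [map_add, ← add_div]
        exact div_le_div_of_nonneg_right (norm_add_le _ _) hD.le
      N_smul := fun c y => by rw [map_smul, norm_smul, Real.norm_eq_abs, mul_div_assoc]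
      ha := by positivity
      lower := fun y => by
        rw [div_mul_eq_mul_div, one_mul, le_div_iff₀ hD, div_mul_eq_mul_div, div_le_iff₀
          (by positivity)]
        have := mul_le_mul_of_nonneg_right (hlow y) hD.le
        linarith
      upper := fun y => by
        rw [div_mul_eq_mul_div]
        exact div_le_div_of_nonneg_right (hup y) hD.le
      modulus := hδ
      K := K
      T := T'
      x0 := x0
      closed := hKcl
      conv := hKcv
      bdd := ⟨_, fun y hy => hbdd' y (hKC hy)⟩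
      maps := hKT
      nonexp := fun y hy z hz => div_le_div_of_nonneg_right (hnxK y hy z hz) hD.le
      x0_mem := hx0
      diam := fun y hy z hz => (div_le_one hD).mpr (hle y hy z hz) }
  obtain ⟨S', ι, z, x, hz, hfix, hx, hclose⟩ := Sys.exists_close_fixed S (show (0 : ℝ) < 1 / 4 by norm_num)
  have hDle : D ≤ D / 2 := by
    refine csSup_le ⟨_, x0, hx0, x0, hx0, rfl⟩ ?_
    rintro d ⟨p, hp, q, hq, rfl⟩
    have h := Sys.minimal_diam_le S hmin ι hz hfix hx hp hq
    change ‖e.symm (p - q)‖ / D ≤ _ at h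
    rw [div_le_iff₀ hD] at h
    have h2 := mul_le_mul_of_nonneg_right hclose hD.le
    linarith
  linarith

end

end Vale.Agent.P079
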