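import Mathlib

/-!
P079: minimal invariant convex sets in uniformly convex spaces, their diametrality for a second
(seminorm) metric, the Goebel-Karlovitz argument and approximate fixed points.
-/

namespace Vale.Agent.P079.MinimalSet

open Set Filter Topology

/-- A nonempty chain of nonempty closed convex sets inside a bounded set of a uniformly convex
Banach space has a common point. -/
theorem chain_inter_nonempty {X : Type*} [NormedAddCommGroup X] [NormedSpace ℝ X] [CompleteSpace X]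
    [UniformConvexSpace X] (c : Set (Set X)) (hne : c.Nonempty)
    (hchain : IsChain (· ⊆ ·) c) (hC : ∀ C ∈ c, C.Nonempty ∧ IsClosed C ∧ Convex ℝ C)
    (M : ℝ) (hM : ∀ C ∈ c, ∀ x ∈ C, ‖x‖ ≤ M) : (⋂₀ c).Nonempty := by
  classical
  set dd : c → ℝ := fun C => Metric.infDist 0 (C : Set X) with hdd
  have hle : ∀ C : c, ∀ x ∈ (C : Set X), dd C ≤ ‖x‖ := fun C x hx => by
    simpa using Metric.infDist_le_dist_of_mem (x := (0 : X)) hx
  have : Nonempty c := hne.to_subtype
  have hbdd : BddAbove (range dd) := by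
    refine ⟨M, ?_⟩
    rintro _ ⟨C, rfl⟩
    obtain ⟨x, hx⟩ := (hC C C.2).1
    exact (hle C x hx).trans (hM C C.2 x hx)
  set d : ℝ := ⨆ C, dd C
  have hdle : ∀ C, dd C ≤ d := fun C => le_ciSup hbdd C
  have hd0 : 0 ≤ d := le_trans Metric.infDist_nonneg (hdle (Classical.arbitrary c))
  -- almost nearest points exist in every set
  have hnear : ∀ (C : c) (η : ℝ), 0 < η → ∃ x ∈ (C : Set X), ‖x‖ ≤ d + η := by
    intro C η hη
    have hlt : Metric.infDist 0 (C : Set X) < d + η := lt_of_le_of_lt (hdle C) (by linarith)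
    obtain ⟨x, hx, hd⟩ := (Metric.infDist_lt_iff (hC C C.2).1).1 hlt
    refine ⟨x, hx, ?_⟩
    rw [dist_zero_left] at hd
    exact hd.le
  -- and they are close to each other in the late sets
  have hsmall : ∀ ε : ℝ, 0 < ε → ∃ (C : c) (η : ℝ), 0 < η ∧ ∀ x ∈ (C : Set X), ∀ y ∈ (C : Set X),
      ‖x‖ ≤ d + η → ‖y‖ ≤ d + η → ‖x - y‖ < ε := by
    intro ε hε
    rcases eq_or_lt_of_le hd0 with hd | hd
    · exact ⟨Classical.arbitrary c, ε / 3, by linarith, fun x _ y _ hx hy =>
        lt_of_le_of_lt (norm_sub_le x y) (by linarith)⟩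
    obtain ⟨δ, hδ, h⟩ := exists_forall_closed_ball_dist_add_le_two_sub X
      (div_pos hε (by linarith : (0 : ℝ) < d + 1))
    set η := min 1 (δ * d / 5) with hη
    have hη0 : 0 < η := lt_min one_pos (by positivity)
    obtain ⟨C, hCd⟩ := exists_lt_of_lt_ciSup (sub_lt_self d hη0)
    refine ⟨C, η, hη0, fun x hx y hy hxn hyn => lt_of_not_ge fun hge => ?_⟩
    have hm : (1 / 2 : ℝ) • x + (1 / 2 : ℝ) • y ∈ (C : Set X) :=
      (hC C C.2).2.2 hx hy (by norm_num) (by norm_num) (by norm_num)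
    have hlow := hle C _ hm
    rw [← smul_add, norm_smul, Real.norm_of_nonneg (by norm_num : (0 : ℝ) ≤ 1 / 2)] at hlow
    have hr : 0 < d + η := by linarith
    have hr' : 0 ≤ (d + η)⁻¹ := inv_nonneg.2 hr.le
    have h1 : ∀ z : X, ‖z‖ ≤ d + η → ‖(d + η)⁻¹ • z‖ ≤ 1 := fun z hz => by
      rw [norm_smul_of_nonneg hr', inv_mul_le_iff₀ hr, mul_one]; exact hz
    have h3 : ε / (d + 1) ≤ ‖(d + η)⁻¹ • x - (d + η)⁻¹ • y‖ := by
      rw [← smul_sub, norm_smul_of_nonneg hr', inv_mul_eq_div]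
      exact le_trans (div_le_div_of_nonneg_left hε.le hr (by linarith [min_le_left 1 (δ * d / 5)]))
        (div_le_div_of_nonneg_right hge hr.le)
    have h4 := h (h1 x hxn) (h1 y hyn) h3
    rw [← smul_add, norm_smul_of_nonneg hr', inv_mul_le_iff₀ hr] at h4
    nlinarith [min_le_right 1 (δ * d / 5), mul_pos hδ hη0, mul_pos hδ hd]
  choose near hnearmem hnearle using hnear
  choose Cε ηε hηε hCε using fun k : ℕ => hsmall ((1 / 2 : ℝ) ^ k) (by positivity)
  set y : ℕ → X := fun k => near (Cε k) (ηε k) (hηε k)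
  -- any almost nearest point of any set is close to the k-th point
  have hclose : ∀ (k : ℕ) (C : c), ∃ z ∈ (C : Set X), ‖z - y k‖ < (1 / 2 : ℝ) ^ k := by
    intro k C
    rcases hchain.total C.2 (Cε k).2 with h | h
    · refine ⟨near C (ηε k) (hηε k), hnearmem _ _ _, hCε k _ (h (hnearmem _ _ _)) _
        (hnearmem _ _ _) (hnearle _ _ _) (hnearle _ _ _)⟩
    · exact ⟨y k, h (hnearmem _ _ _), by rw [sub_self, norm_zero]; positivity⟩
  have hcauchy : CauchySeq y := by
    refine Metric.cauchySeq_iff.2 fun ε hε => ?_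
    obtain ⟨k₀, hk₀⟩ := exists_pow_lt_of_lt_one (show 0 < ε / 2 by linarith) (show (1 / 2 : ℝ) < 1 by norm_num)
    refine ⟨k₀, fun m hm n hn => ?_⟩
    obtain ⟨C, hCm, hCn⟩ : ∃ C : c, (C : Set X) ⊆ Cε m ∧ (C : Set X) ⊆ Cε n := by
      rcases hchain.total (Cε m).2 (Cε n).2 with h | h
      · exact ⟨Cε m, subset_rfl, h⟩
      · exact ⟨Cε n, h, subset_rfl⟩
    have hη : 0 < min (ηε m) (ηε n) := lt_min (hηε m) (hηε n)
    have h1 := hCε m _ (hCm (hnearmem C _ hη)) _ (hnearmem _ _ (hηε m))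
      ((hnearle C _ hη).trans (by linarith [min_le_left (ηε m) (ηε n)])) (hnearle _ _ _)
    have h2 := hCε n _ (hCn (hnearmem C _ hη)) _ (hnearmem _ _ (hηε n))
      ((hnearle C _ hη).trans (by linarith [min_le_right (ηε m) (ηε n)])) (hnearle _ _ _)
    have hp : ∀ j, k₀ ≤ j → (1 / 2 : ℝ) ^ j ≤ (1 / 2 : ℝ) ^ k₀ := fun j hj =>
      pow_le_pow_of_le_one (by norm_num) (by norm_num) hj
    rw [norm_sub_rev] at h1
    rw [dist_eq_norm]
    calc ‖y m - y n‖ = ‖(y m - near C _ hη) + (near C _ hη - y n)‖ := by rw [sub_add_sub_cancel]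
      _ ≤ ‖y m - near C _ hη‖ + ‖near C _ hη - y n‖ := norm_add_le _ _
      _ < ε := by linarith [hp m hm, hp n hn]
  obtain ⟨x, hx⟩ := cauchySeq_tendsto_of_complete hcauchy
  refine ⟨x, fun C hCc => ?_⟩
  choose z hzC hz using fun k => hclose k ⟨C, hCc⟩
  refine (hC C hCc).2.1.mem_of_tendsto (b := atTop) ?_ (Eventually.of_forall hzC)
  have h0 : Tendsto (fun k => z k - y k) atTop (𝓝 0) :=
    squeeze_zero_norm (fun k => (hz k).le)
      (tendsto_pow_atTop_nhds_zero_of_lt_one (by norm_num) (by norm_num))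
  simpa using h0.add hx

/-- A minimal nonempty closed convex invariant subset. -/
theorem exists_minimal {X : Type*} [NormedAddCommGroup X] [NormedSpace ℝ X] [CompleteSpace X]
    [UniformConvexSpace X] {K : Set X} (hne : K.Nonempty) (hcl : IsClosed K) (hcv : Convex ℝ K)
    (M : ℝ) (hM : ∀ x ∈ K, ‖x‖ ≤ M) (T : X → X) (hT : MapsTo T K K) :
    ∃ K₀, K₀ ⊆ K ∧ K₀.Nonempty ∧ IsClosed K₀ ∧ Convex ℝ K₀ ∧ MapsTo T K₀ K₀ ∧
      ∀ C, C ⊆ K₀ → C.Nonempty → IsClosed C → Convex ℝ C → MapsTo T C C → C = K₀ := by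
  set S : Set (Set X) :=
    {C | C ⊆ K ∧ C.Nonempty ∧ IsClosed C ∧ Convex ℝ C ∧ MapsTo T C C}
  obtain ⟨K₀, hK₀, hmin⟩ := zorn_superset_nonempty S (fun c hcS hc hcne => by
    refine ⟨⋂₀ c, ⟨?_, ?_, ?_, ?_, ?_⟩, fun s hs => sInter_subset_of_mem hs⟩
    · obtain ⟨s, hs⟩ := hcne
      exact (sInter_subset_of_mem hs).trans (hcS hs).1
    · exact chain_inter_nonempty c hcne hc
        (fun C hC => ⟨(hcS hC).2.1, (hcS hC).2.2.1, (hcS hC).2.2.2.1⟩) M
        (fun C hC x hx => hM x ((hcS hC).1 hx))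
    · exact isClosed_sInter fun C hC => (hcS hC).2.2.1
    · exact convex_sInter fun C hC => (hcS hC).2.2.2.1
    · exact fun x hx C hC => (hcS hC).2.2.2.2 (hx C hC))
    K ⟨subset_rfl, hne, hcl, hcv, hT⟩
  obtain ⟨⟨hsub, hn0, hc0, hv0, hm0⟩, hminimal⟩ := hmin
  refine ⟨K₀, hsub, hn0, hc0, hv0, hm0, fun C hC hCn hCc hCv hCT => ?_⟩
  exact hC.antisymm (hminimal ⟨hC.trans hsub, hCn, hCc, hCv, hCT⟩ hC)

variable {X : Type*} [NormedAddCommGroup X] [NormedSpace ℝ X]

/-- A continuous convex function that does not increase along `T` is constant on a minimal set. -/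
theorem const_on_minimal {K : Set X} {T : X → X} (hcl : IsClosed K)
    (hT : MapsTo T K K)
    (hmin : ∀ C, C ⊆ K → C.Nonempty → IsClosed C → Convex ℝ C → MapsTo T C C → C = K)
    {φ : X → ℝ} (hφc : Continuous φ) (hφv : ConvexOn ℝ K φ)
    (hφT : ∀ x ∈ K, φ (T x) ≤ φ x) {x y : X} (hx : x ∈ K) (hy : y ∈ K) : φ x = φ y := by
  have key : ∀ a ∈ K, ∀ b ∈ K, φ b ≤ φ a := by
    intro a ha b hb
    have h : {z ∈ K | φ z ≤ φ a} = K := hmin _ (sep_subset _ _) ⟨a, ha, le_rfl⟩
      (hcl.inter (isClosed_le hφc continuous_const)) (hφv.convex_le _)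
      (fun z hz => ⟨hT hz.1, (hφT z hz.1).trans hz.2⟩)
    rw [← h] at hb
    exact hb.2
  exact le_antisymm (key y hy x hx) (key x hx y hy)

/-- Minimal sets are diametral: a Chebyshev radius bound is a bound on the diameter. -/
theorem diam_le_of_radius {K : Set X} {T : X → X} (hcl : IsClosed K) (hcv : Convex ℝ K)
    (hT : MapsTo T K K)
    (hmin : ∀ C, C ⊆ K → C.Nonempty → IsClosed C → Convex ℝ C → MapsTo T C C → C = K)
    (N : Seminorm ℝ X) (hNc : Continuous N) (hne : ∀ x ∈ K, ∀ y ∈ K, N (T x - T y) ≤ N (x - y))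
    {w : X} (hw : w ∈ K) {r : ℝ} (hr : ∀ x ∈ K, N (x - w) ≤ r) :
    ∀ x ∈ K, ∀ y ∈ K, N (x - y) ≤ r := by
  have hball : ∀ v : X, Convex ℝ {z | N (z - v) ≤ r} := fun v => by
    have : {z | N (z - v) ≤ r} = N.closedBall v r := by ext z; simp [Seminorm.mem_closedBall]
    rw [this]; exact N.convex_closedBall v r
  have hballc : ∀ v : X, IsClosed {z | N (z - v) ≤ r} := fun v =>
    isClosed_le (hNc.comp (continuous_id.sub continuous_const)) continuous_const
  have hhull : closure (convexHull ℝ (T '' K)) = K := by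
    have hsub : closure (convexHull ℝ (T '' K)) ⊆ K :=
      closure_minimal (convexHull_min hT.image_subset hcv) hcl
    refine hmin _ hsub ⟨T w, subset_closure (subset_convexHull ℝ _ ⟨w, hw, rfl⟩)⟩ isClosed_closure
      (convex_convexHull ℝ _).closure fun z hz => ?_
    exact subset_closure (subset_convexHull ℝ _ ⟨z, hsub hz, rfl⟩)
  set W : Set X := K ∩ ⋂ x ∈ K, {z | N (z - x) ≤ r}
  have hW : W = K := by
    refine hmin _ inter_subset_left ⟨w, hw, mem_iInter₂.2 fun x hx => ?_⟩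
      (hcl.inter (isClosed_biInter fun x _ => hballc x))
      (hcv.inter (convex_iInter₂ fun x _ => hball x)) ?_
    · show N (w - x) ≤ r
      rw [map_sub_rev]; exact hr x hx
    · intro v hv
      refine ⟨hT hv.1, mem_iInter₂.2 fun x hx => ?_⟩
      show N (T v - x) ≤ r
      rw [map_sub_rev]
      have hsub : closure (convexHull ℝ (T '' K)) ⊆ {z | N (z - T v) ≤ r} := by
        refine closure_minimal (convexHull_min ?_ (hball _)) (hballc _)
        rintro _ ⟨u, hu, rfl⟩
        refine (hne u hu v hv.1).trans ?_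
        rw [map_sub_rev]
        exact mem_iInter₂.1 hv.2 u hu
      exact hsub (hhull.symm ▸ hx)
  intro x hx y hy
  rw [← hW] at hx
  exact mem_iInter₂.1 hx.2 y hy

/-- The fixed point of a strict averaged contraction, for a second norm equivalent to the norm. -/
theorem exists_averaged_fixed [CompleteSpace X] {K : Set X} (hcl : IsClosed K) (hcv : Convex ℝ K)
    {T : X → X} (hT : MapsTo T K K) (hTc : ContinuousOn T K) (N : Seminorm ℝ X) {a : ℝ}
    (ha : 0 < a) (hNa : ∀ v, a * ‖v‖ ≤ N v)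
    (hne : ∀ x ∈ K, ∀ y ∈ K, N (T x - T y) ≤ N (x - y)) {q : X} (hq : q ∈ K) {s : ℝ} (hs : 0 < s)
    (hs1 : s ≤ 1) : ∃ v ∈ K, s • q + (1 - s) • T v = v := by
  set u : ℕ → X := fun n => (fun v => s • q + (1 - s) • T v)^[n] q
  have hu0 : u 0 = q := rfl
  have hsucc : ∀ n, u (n + 1) = s • q + (1 - s) • T (u n) := fun n =>
    Function.iterate_succ_apply' _ n q
  have hmem : ∀ n, u n ∈ K := by
    intro n
    induction n with
    | zero => exact hq
    | succ n ih =>
      rw [hsucc]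
      exact hcv hq (hT ih) hs.le (by linarith) (by ring)
  have hgeo : ∀ n, N (u (n + 1) - u n) ≤ N (u 1 - u 0) * (1 - s) ^ n := by
    intro n
    induction n with
    | zero => simp
    | succ n ih =>
      calc N (u (n + 1 + 1) - u (n + 1)) = N ((1 - s) • (T (u (n + 1)) - T (u n))) := by
            rw [hsucc (n + 1), hsucc n]; congr 1; module
        _ ≤ (1 - s) * N (u (n + 1) - u n) := by
            rw [map_smul_eq_mul, Real.norm_of_nonneg (by linarith)]
            exact mul_le_mul_of_nonneg_left (hne _ (hmem _) _ (hmem _)) (by linarith)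
        _ ≤ (1 - s) * (N (u 1 - u 0) * (1 - s) ^ n) := mul_le_mul_of_nonneg_left ih (by linarith)
        _ = _ := by ring
  have hdist : ∀ n, dist (u n) (u (n + 1)) ≤ N (u 1 - u 0) / a * (1 - s) ^ n := by
    intro n
    rw [dist_comm, dist_eq_norm, div_mul_eq_mul_div, le_div_iff₀ ha, mul_comm]
    exact (hNa _).trans (hgeo n)
  obtain ⟨v, hv⟩ := cauchySeq_tendsto_of_complete
    (cauchySeq_of_le_geometric (1 - s) (N (u 1 - u 0) / a) (by linarith) hdist)
  have hvK : v ∈ K := hcl.mem_of_tendsto hv (Eventually.of_forall hmem)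
  refine ⟨v, hvK, tendsto_nhds_unique ?_ (hv.comp (tendsto_add_atTop_nat 1))⟩
  have hTu : Tendsto (fun n => T (u n)) atTop (𝓝 (T v)) :=
    (hTc v hvK).tendsto.comp (tendsto_nhdsWithin_iff.2 ⟨hv, Eventually.of_forall hmem⟩)
  exact ((tendsto_const_nhds (x := s • q)).add (hTu.const_smul (1 - s))).congr
    fun n => (hsucc n).symm

end Vale.Agent.P079.MinimalSet
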