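import Vale.Agent.P079.Ultra

/-!
P079: systems (norm, equivalent uniformly convex norm, set, map, base point), their ultrapowers and
resolvents.
-/

namespace Vale.Agent.P079

open Filter Topology Set

noncomputable section

universe u

/-- A nonexpansive map on a closed bounded convex set of diameter at most one. The norm of the space
is uniformly convex, `N` is the norm of nonexpansiveness. -/
structure Sys (a b : ℝ) (δ : ℝ → ℝ) : Type (u + 1) where
  E : Type u
  [grp : NormedAddCommGroup E]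
  [spc : NormedSpace ℝ E]
  [cpl : CompleteSpace E]
  N : E → ℝ
  N_add : ∀ x y, N (x + y) ≤ N x + N y
  N_smul : ∀ (c : ℝ) x, N (c • x) = |c| * N x
  ha : 0 < a
  lower : ∀ x, a * ‖x‖ ≤ N x
  upper : ∀ x, N x ≤ b * ‖x‖
  modulus : Modulus δ E
  K : Set E
  T : E → E
  x0 : E
  closed : IsClosed K
  conv : Convex ℝ K
  bdd : ∃ R, ∀ x ∈ K, ‖x‖ ≤ R
  maps : MapsTo T K K
  nonexp : ∀ x ∈ K, ∀ y ∈ K, N (T x - T y) ≤ N (x - y)
  x0_mem : x0 ∈ K
  diam : ∀ x ∈ K, ∀ y ∈ K, N (x - y) ≤ 1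

attribute [instance] Sys.grp Sys.spc Sys.cpl

namespace Sys

variable {a b : ℝ} {δ : ℝ → ℝ} (S : Sys.{u} a b δ)

lemma N_nonneg (x : S.E) : 0 ≤ S.N x :=
  le_trans (mul_nonneg S.ha.le (norm_nonneg x)) (S.lower x)

lemma N_zero : S.N 0 = 0 := by simpa using S.N_smul 0 0

lemma N_neg (x : S.E) : S.N (-x) = S.N x := by simpa using S.N_smul (-1) x

lemma N_sub_comm (x y : S.E) : S.N (x - y) = S.N (y - x) := by rw [← S.N_neg, neg_sub]

lemma N_triangle (x y z : S.E) : S.N (x - z) ≤ S.N (x - y) + S.N (y - z) := by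
  simpa using S.N_add (x - y) (y - z)

lemma eq_of_N_sub_le_zero {x y : S.E} (h : S.N (x - y) ≤ 0) : x = y := by
  have h1 := (S.lower (x - y)).trans h
  have h2 : ‖x - y‖ ≤ 0 := by
    by_contra hc
    push Not at hc
    have := mul_pos S.ha hc
    linarith
  exact sub_eq_zero.mp (norm_le_zero_iff.mp h2)

lemma abs_N_sub_le (x y : S.E) : |S.N x - S.N y| ≤ b * ‖x - y‖ := by
  have h1 := S.N_add (x - y) y
  have h2 := S.N_add (y - x) x
  rw [sub_add_cancel] at h1 h2
  have h3 := S.upper (x - y)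
  rw [S.N_sub_comm y x] at h2
  rw [abs_le]
  constructor <;> linarith

lemma tendsto_N {ι : Type*} {l : Filter ι} {f : ι → S.E} {x : S.E}
    (h : Tendsto (fun n => ‖f n - x‖) l (𝓝 0)) : Tendsto (fun n => S.N (f n)) l (𝓝 (S.N x)) := by
  refine tendsto_sub_nhds_zero_iff.mp (squeeze_zero_norm (fun n => ?_) (by simpa using h.const_mul b))
  exact S.abs_N_sub_le _ _

/-- The norm of nonexpansiveness on the ultrapower. -/
def nextN (x : Ultra S.E) : ℝ := ulim fun n => S.N (urep x n)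

lemma tendsto_nextN {f : ℕ → S.E} (hf : ∃ R, ∀ n, ‖f n‖ ≤ R) :
    Tendsto (fun n => S.N (f n)) (uf : Filter ℕ) (𝓝 (S.nextN (umk f hf))) := by
  obtain ⟨R, hR⟩ := urep_bdd (umk f hf)
  have hb : 0 ≤ |b| := abs_nonneg b
  have h1 := tendsto_ulim (g := fun n => S.N (urep (umk f hf) n)) (R := |b| * R) fun n => by
    rw [abs_of_nonneg (S.N_nonneg _)]
    exact (S.upper _).trans ((mul_le_mul_of_nonneg_right (le_abs_self b) (norm_nonneg _)).trans
      (mul_le_mul_of_nonneg_left (hR n) hb))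
  have h2 : Tendsto (fun n => S.N (f n) - S.N (urep (umk f hf) n)) (uf : Filter ℕ) (𝓝 0) := by
    refine squeeze_zero_norm (fun n => ?_) (by simpa using (urep_umk (f := f) (hf := hf)).const_mul b)
    exact (S.abs_N_sub_le _ _).trans_eq (by rw [norm_sub_rev])
  have h3 := h2.add h1
  simp only [sub_add_cancel, zero_add] at h3
  exact h3

/-- The set on the ultrapower. -/
def nextK : Set (Ultra S.E) := {x | ∃ f hf, (∀ n, f n ∈ S.K) ∧ umk f hf = x}

lemma bdd_of_mem {f : ℕ → S.E} (h : ∀ n, f n ∈ S.K) : ∃ R, ∀ n, ‖f n‖ ≤ R :=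
  ⟨S.bdd.choose, fun n => S.bdd.choose_spec _ (h n)⟩

/-- A sequence in the set, as a point of the ultrapower. -/
def seq (f : ℕ → S.E) (h : ∀ n, f n ∈ S.K) : Ultra S.E := umk f (S.bdd_of_mem h)

lemma seq_mem (f : ℕ → S.E) (h : ∀ n, f n ∈ S.K) : S.seq f h ∈ S.nextK := ⟨f, _, h, rfl⟩

open Classical in
/-- The map on the ultrapower. -/
def nextT (x : Ultra S.E) : Ultra S.E :=
  if h : x ∈ S.nextK then S.seq (fun n => S.T (h.choose n)) fun n => S.maps (h.choose_spec.choose_spec.1 n)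
  else x

lemma nextT_seq (f : ℕ → S.E) (h : ∀ n, f n ∈ S.K) :
    S.nextT (S.seq f h) = S.seq (fun n => S.T (f n)) fun n => S.maps (h n) := by
  have hx : S.seq f h ∈ S.nextK := S.seq_mem f h
  obtain ⟨hg, hgf⟩ := hx.choose_spec.choose_spec
  rw [nextT, dif_pos hx]
  refine umk_eq_iff.mpr ?_
  have h0 := umk_eq_iff.mp hgf
  refine squeeze_zero (fun n => norm_nonneg _) (fun n => ?_)
    (by simpa using h0.const_mul (b / a))
  have h1 := (S.lower (S.T (hx.choose n) - S.T (f n))).trans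
    ((S.nonexp _ (hg n) _ (h n)).trans (S.upper _))
  rw [div_mul_eq_mul_div, le_div_iff₀ S.ha]
  linarith

/-- The ultrapower of a system. -/
def next : Sys.{u} a b δ where
  E := Ultra S.E
  N := S.nextN
  N_add x y := by
    obtain ⟨f, hf, rfl⟩ := umk_surjective x
    obtain ⟨g, hg, rfl⟩ := umk_surjective y
    rw [umk_add]
    exact le_of_tendsto_of_tendsto' (S.tendsto_nextN _) ((S.tendsto_nextN _).add (S.tendsto_nextN _))
      fun n => S.N_add _ _
  N_smul c x := by
    obtain ⟨f, hf, rfl⟩ := umk_surjective x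
    rw [umk_smul]
    refine tendsto_nhds_unique (S.tendsto_nextN _) ?_
    simp only [S.N_smul]
    exact (S.tendsto_nextN hf).const_mul |c|
  ha := S.ha
  lower x := by
    obtain ⟨f, hf, rfl⟩ := umk_surjective x
    exact le_of_tendsto_of_tendsto' ((tendsto_norm hf).const_mul a) (S.tendsto_nextN hf)
      fun n => S.lower _
  upper x := by
    obtain ⟨f, hf, rfl⟩ := umk_surjective x
    exact le_of_tendsto_of_tendsto' (S.tendsto_nextN hf) ((tendsto_norm hf).const_mul b)
      fun n => S.upper _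
  modulus := modulus_ultra S.modulus
  K := S.nextK
  T := S.nextT
  x0 := diagU S.x0
  closed := by
    refine isClosed_of_closure_subset fun x hx => ?_
    obtain ⟨f, hf, rfl⟩ := umk_surjective x
    have hne : S.K.Nonempty := ⟨S.x0, S.x0_mem⟩
    have hex : ∀ n, ∃ p ∈ S.K, ‖f n - p‖ ≤ Metric.infDist (f n) S.K + 1 / (n + 1 : ℝ) := fun n => by
      obtain ⟨p, hp, hp'⟩ := (Metric.infDist_lt_iff hne).mp
        (lt_add_of_pos_right (Metric.infDist (f n) S.K) (show (0 : ℝ) < 1 / (n + 1) by positivity))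
      exact ⟨p, hp, by rw [← dist_eq_norm]; exact hp'.le⟩
    choose g hg hfg using hex
    refine ⟨g, S.bdd_of_mem hg, hg, (umk_eq_iff.mpr ?_).symm⟩
    refine Metric.tendsto_nhds.mpr fun ε hε => ?_
    obtain ⟨y, hy, hxy⟩ := Metric.mem_closure_iff.mp hx (ε / 2) (half_pos hε)
    obtain ⟨k, hk, hkK, rfl⟩ := hy
    rw [dist_eq_norm, umk_sub] at hxy
    have hsmall : ∀ᶠ n : ℕ in (uf : Filter ℕ), 1 / ((n : ℝ) + 1) < ε / 2 :=
      ((tendsto_one_div_add_atTop_nhds_zero_nat (𝕜 := ℝ)).mono_left uf_le).eventually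
        (eventually_lt_nhds (half_pos hε))
    filter_upwards [(tendsto_norm _).eventually (eventually_lt_nhds hxy), hsmall] with n h1 h2
    rw [Real.dist_eq, sub_zero, abs_of_nonneg (norm_nonneg _)]
    have h3 : Metric.infDist (f n) S.K ≤ ‖f n - k n‖ := by
      rw [← dist_eq_norm]; exact Metric.infDist_le_dist_of_mem (hkK n)
    linarith [hfg n]
  conv := by
    rintro x ⟨f, hf, hfK, rfl⟩ y ⟨g, hg, hgK, rfl⟩ c e hc he hce
    rw [umk_smul, umk_smul, umk_add]
    exact ⟨_, _, fun n => S.conv (hfK n) (hgK n) hc he hce, rfl⟩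
  bdd := by
    obtain ⟨R, hR⟩ := S.bdd
    refine ⟨R, ?_⟩
    rintro x ⟨f, hf, hfK, rfl⟩
    exact le_of_tendsto' (tendsto_norm hf) fun n => hR _ (hfK n)
  maps := by
    rintro x ⟨f, hf, hfK, rfl⟩
    change S.nextT (S.seq f hfK) ∈ S.nextK
    rw [S.nextT_seq]
    exact S.seq_mem _ _
  nonexp := by
    rintro x ⟨f, hf, hfK, rfl⟩ y ⟨g, hg, hgK, rfl⟩
    change S.nextN (S.nextT (S.seq f hfK) - S.nextT (S.seq g hgK)) ≤ _
    rw [S.nextT_seq, S.nextT_seq, seq, seq, umk_sub, umk_sub]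
    exact le_of_tendsto_of_tendsto' (S.tendsto_nextN _) (S.tendsto_nextN _)
      fun n => S.nonexp _ (hfK n) _ (hgK n)
  x0_mem := ⟨fun _ => S.x0, _, fun _ => S.x0_mem, rfl⟩
  diam := by
    rintro x ⟨f, hf, hfK, rfl⟩ y ⟨g, hg, hgK, rfl⟩
    rw [umk_sub]
    exact le_of_tendsto' (S.tendsto_nextN _) fun n => S.diam _ (hfK n) _ (hgK n)

/-- An isometric inclusion of systems. -/
structure Hom (S S' : Sys.{u} a b δ) where
  toMap : S.E →ₗᵢ[ℝ] S'.E
  map_N : ∀ x, S'.N (toMap x) = S.N x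
  map_K : ∀ x ∈ S.K, toMap x ∈ S'.K
  map_T : ∀ x ∈ S.K, S'.T (toMap x) = toMap (S.T x)
  map_x0 : toMap S.x0 = S'.x0

/-- Composition of inclusions. -/
def Hom.trans {S S' S'' : Sys.{u} a b δ} (f : Hom S S') (g : Hom S' S'') : Hom S S'' where
  toMap := g.toMap.comp f.toMap
  map_N x := (g.map_N _).trans (f.map_N x)
  map_K x hx := g.map_K _ (f.map_K x hx)
  map_T x hx := (g.map_T _ (f.map_K x hx)).trans (congrArg g.toMap (f.map_T x hx))
  map_x0 := (congrArg g.toMap f.map_x0).trans g.map_x0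

/-- The constants in the ultrapower. -/
def diag : Hom S S.next where
  toMap := diagU
  map_N x := tendsto_nhds_unique (S.tendsto_nextN _) tendsto_const_nhds
  map_K x hx := ⟨fun _ => x, _, fun _ => hx, rfl⟩
  map_T x hx := (S.nextT_seq (fun _ => x) fun _ => hx).trans rfl
  map_x0 := rfl

/-- The ultrapower of an inclusion. -/
def Hom.next {S S' : Sys.{u} a b δ} (f : Hom S S') : Hom S.next S'.next where
  toMap := umapL f.toMap
  map_N x := by
    obtain ⟨g, hg, rfl⟩ := umk_surjective x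
    change S'.nextN (umap f.toMap (umk g hg)) = _
    rw [umap_umk]
    refine tendsto_nhds_unique (S'.tendsto_nextN _) ?_
    simp only [f.map_N]
    exact S.tendsto_nextN hg
  map_K := by
    rintro x ⟨g, hg, hgK, rfl⟩
    change umap f.toMap (umk g hg) ∈ _
    rw [umap_umk]
    exact ⟨_, _, fun n => f.map_K _ (hgK n), rfl⟩
  map_T := by
    rintro x ⟨g, hg, hgK, rfl⟩
    change S'.nextT (umap f.toMap (S.seq g hgK)) = umap f.toMap (S.nextT (S.seq g hgK))
    rw [S.nextT_seq, seq, seq, umap_umk, umap_umk]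
    refine (S'.nextT_seq _ fun n => f.map_K _ (hgK n)).trans ?_
    simp only [seq, f.map_T _ (hgK _)]
  map_x0 := by
    change umap f.toMap (umk _ _) = _
    rw [umap_umk]
    simp only [f.map_x0]
    rfl

/-- The weak limit map of a system. -/
def lim : S.next.E →ₗ[ℝ] S.E := wlimL S.modulus

lemma lim_diag (x : S.E) : S.lim (S.diag.toMap x) = x := wlim_diagU S.modulus x

lemma norm_lim_le (x : S.next.E) : ‖S.lim x‖ ≤ ‖x‖ := norm_wlim_le S.modulus x

lemma lim_mem {x : S.next.E} (hx : x ∈ S.next.K) : S.lim x ∈ S.K := by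
  obtain ⟨f, hf, hfK, rfl⟩ := hx
  obtain ⟨p, hp, hpK⟩ := exists_weakLimit S.modulus f hf.choose_spec
  have h : S.lim (umk f hf) = p := eq_of_dual fun φ => by
    rw [hp φ]
    exact (ulim_eq (dual_wlim S.modulus φ)).symm
  rw [h]
  exact hpK S.K S.closed S.conv (Eventually.of_forall hfK)

lemma N_lim_le (x : S.next.E) : S.N (S.lim x) ≤ S.next.N x := by
  obtain ⟨f, hf, rfl⟩ := umk_surjective (Y := S.E) x
  refine le_of_forall_pos_le_add fun ε hε => ?_
  obtain ⟨p, hp, hpC⟩ := exists_weakLimit S.modulus f hf.choose_spec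
  have h : S.lim (umk f hf) = p := eq_of_dual fun φ => by
    rw [hp φ]
    exact (ulim_eq (dual_wlim S.modulus φ)).symm
  rw [h]
  refine hpC {y | S.N y ≤ S.nextN (umk f hf) + ε} ?_ ?_
    ((S.tendsto_nextN hf).eventually (eventually_le_nhds (lt_add_of_pos_right _ hε)))
  · refine isClosed_le (Metric.continuous_iff.mpr fun y η hη => ?_) continuous_const
    refine ⟨η / (|b| + 1), by positivity, fun z hz => ?_⟩
    rw [Real.dist_eq]
    rw [dist_eq_norm, lt_div_iff₀ (by positivity)] at hz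
    refine lt_of_le_of_lt (S.abs_N_sub_le z y) ?_
    have := le_abs_self b
    nlinarith [norm_nonneg (z - y)]
  · intro y hy z hz c e hc he hce
    simp only [Set.mem_ofPred_eq] at hy hz ⊢
    have h1 := S.N_add (c • y) (e • z)
    rw [S.N_smul, S.N_smul, abs_of_nonneg hc, abs_of_nonneg he] at h1
    have h2 := mul_le_mul_of_nonneg_left hy hc
    have h3 := mul_le_mul_of_nonneg_left hz he
    have h4 : c * (S.nextN (umk f hf) + ε) + e * (S.nextN (umk f hf) + ε) =
        S.nextN (umk f hf) + ε := by rw [← add_mul, hce, one_mul]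
    linarith

lemma Hom.lim_next {S S' : Sys.{u} a b δ} (f : Hom S S') (x : S.next.E) :
    S'.lim (f.next.toMap x) = f.toMap (S.lim x) :=
  wlim_umap S.modulus S'.modulus f.toMap x

lemma exists_res (k : ℕ) {q : S.E} (hq : q ∈ S.K) :
    ∃ v ∈ S.K, v = (1 / (k + 1 : ℝ)) • q + (1 - 1 / (k + 1 : ℝ)) • S.T v := by
  set h : ℝ := 1 / (k + 1 : ℝ) with hh
  have h0 : 0 < h := by positivity
  have h1 : h ≤ 1 := by rw [hh, div_le_one (by positivity)]; linarith [k.cast_nonneg (α := ℝ)]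
  set F : S.E → S.E := fun v => h • q + (1 - h) • S.T v
  have hF : MapsTo F S.K S.K := fun v hv =>
    S.conv hq (S.maps hv) h0.le (sub_nonneg.mpr h1) (by ring)
  have hFN : ∀ v ∈ S.K, ∀ w ∈ S.K, S.N (F v - F w) ≤ (1 - h) * S.N (v - w) := fun v hv w hw => by
    simp only [F, add_sub_add_left_eq_sub, ← smul_sub, S.N_smul, abs_of_nonneg (sub_nonneg.mpr h1)]
    exact mul_le_mul_of_nonneg_left (S.nonexp v hv w hw) (sub_nonneg.mpr h1)
  set v : ℕ → S.E := fun i => F^[i] q
  have hv : ∀ i, v i ∈ S.K := fun i => hF.iterate i hq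
  have hsucc : ∀ i, v (i + 1) = F (v i) := fun i => Function.iterate_succ_apply' F i q
  have hstep : ∀ i, S.N (v i - v (i + 1)) ≤ (1 - h) ^ i := by
    intro i
    induction i with
    | zero => simpa using S.diam _ (hv 0) _ (hv 1)
    | succ i ih =>
      rw [hsucc (i + 1), hsucc i]
      exact (hFN _ (hv i) _ (by rw [← hsucc]; exact hv _)).trans
        (by rw [← hsucc, pow_succ']; exact mul_le_mul_of_nonneg_left ih (sub_nonneg.mpr h1))
  have hcau : CauchySeq v := cauchySeq_of_le_geometric (1 - h) (1 / a) (by linarith) fun i => by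
    rw [dist_eq_norm, one_div_mul_eq_div, le_div_iff₀ S.ha]
    have := (S.lower _).trans (hstep i)
    linarith
  obtain ⟨p, hp⟩ := cauchySeq_tendsto_of_complete hcau
  have hpK : p ∈ S.K := S.closed.mem_of_tendsto hp (Eventually.of_forall hv)
  refine ⟨p, hpK, S.eq_of_N_sub_le_zero ?_⟩
  have hn : Tendsto (fun i => ‖v i - p‖) atTop (𝓝 0) := by
    simpa [dist_eq_norm] using tendsto_iff_dist_tendsto_zero.mp hp
  have hn1 := hn.comp (tendsto_add_atTop_nat 1)
  have hlim : Tendsto (fun i => b * ‖v (i + 1) - p‖ + b * ‖v i - p‖) atTop (𝓝 0) := by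
    simpa using (hn1.const_mul b).add (hn.const_mul b)
  refine ge_of_tendsto hlim (Eventually.of_forall fun i => ?_)
  have e1 := S.N_triangle p (v (i + 1)) (F p)
  have e2 : S.N (v (i + 1) - F p) ≤ b * ‖v i - p‖ := by
    rw [hsucc]
    refine (hFN _ (hv i) _ hpK).trans (le_trans ?_ (S.upper _))
    exact mul_le_of_le_one_left (S.N_nonneg _) (by linarith)
  have e3 := S.upper (v (i + 1) - p)
  rw [S.N_sub_comm p (v (i + 1))] at e1
  linarith

open Classical in
/-- The resolvent. -/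
def res (k : ℕ) (q : S.E) : S.E := if hq : q ∈ S.K then (S.exists_res k hq).choose else S.x0

lemma res_mem (k : ℕ) (q : S.E) : S.res k q ∈ S.K := by
  by_cases hq : q ∈ S.K
  · rw [res, dif_pos hq]; exact (S.exists_res k hq).choose_spec.1
  · rw [res, dif_neg hq]; exact S.x0_mem

lemma res_eq (k : ℕ) {q : S.E} (hq : q ∈ S.K) :
    S.res k q = (1 / (k + 1 : ℝ)) • q + (1 - 1 / (k + 1 : ℝ)) • S.T (S.res k q) := by
  rw [res, dif_pos hq]; exact (S.exists_res k hq).choose_spec.2

lemma res_compare (k : ℕ) {q q' v v' : S.E} (hv : v ∈ S.K) (hv' : v' ∈ S.K)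
    (e : v = (1 / (k + 1 : ℝ)) • q + (1 - 1 / (k + 1 : ℝ)) • S.T v)
    (e' : v' = (1 / (k + 1 : ℝ)) • q' + (1 - 1 / (k + 1 : ℝ)) • S.T v') :
    S.N (v - v') ≤ S.N (q - q') := by
  set h : ℝ := 1 / (k + 1 : ℝ) with hh
  have h0 : 0 < h := by positivity
  have h1 : h ≤ 1 := by rw [hh, div_le_one (by positivity)]; linarith [k.cast_nonneg (α := ℝ)]
  have hsub : v - v' = h • (q - q') + (1 - h) • (S.T v - S.T v') := by
    rw [smul_sub, smul_sub]
    conv_lhs => rw [e, e']
    abel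
  have h2 := S.N_add (h • (q - q')) ((1 - h) • (S.T v - S.T v'))
  rw [← hsub, S.N_smul, S.N_smul, abs_of_nonneg h0.le, abs_of_nonneg (sub_nonneg.mpr h1)] at h2
  have h3 := mul_le_mul_of_nonneg_left (S.nonexp v hv v' hv') (sub_nonneg.mpr h1)
  exact le_of_mul_le_mul_left (show h * S.N (v - v') ≤ h * S.N (q - q') by linarith) h0

lemma res_fix (k : ℕ) {q : S.E} (hq : q ∈ S.K) (hfix : S.T q = q) : S.res k q = q :=
  S.eq_of_N_sub_le_zero ((S.res_compare k (q := q) (q' := q) (S.res_mem k q) hq (S.res_eq k hq)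
    (by rw [hfix, ← add_smul]; simp)).trans_eq (by rw [sub_self, S.N_zero]))

/-- The resolvents as a point of the ultrapower. -/
def retr (q : S.E) : S.next.E := S.seq (fun k => S.res k q) fun k => S.res_mem k q

lemma retr_mem (q : S.E) : S.retr q ∈ S.next.K := S.seq_mem _ _

lemma retr_fixed {q : S.E} (hq : q ∈ S.K) : S.next.T (S.retr q) = S.retr q := by
  refine (S.nextT_seq _ _).trans (umk_eq_iff.mpr ?_)
  refine squeeze_zero (fun n => norm_nonneg _) (fun k => ?_)
    (((tendsto_one_div_add_atTop_nhds_zero_nat (𝕜 := ℝ)).mono_left uf_le).const_mul (1 / a) |>.trans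
      (by rw [mul_zero]))
  set v := S.res k q
  set h : ℝ := 1 / (k + 1 : ℝ) with hh
  have h0 : 0 < h := by positivity
  have e : S.T v - v = h • (S.T v - q) := by
    conv_lhs => arg 2; rw [show v = h • q + (1 - h) • S.T v from S.res_eq k hq]
    rw [sub_smul, one_smul, smul_sub]
    abel
  rw [one_div_mul_eq_div, le_div_iff₀ S.ha]
  have h2 : S.N (S.T v - v) ≤ h := by
    rw [e, S.N_smul, abs_of_nonneg h0.le]
    exact mul_le_of_le_one_right h0.le (S.diam _ (S.maps (S.res_mem k q)) _ hq)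
  linarith [S.lower (S.T v - v)]

lemma retr_of_fixed {q : S.E} (hq : q ∈ S.K) (hfix : S.T q = q) : S.retr q = S.diag.toMap q := by
  refine umk_eq_iff.mpr ?_
  simp [S.res_fix _ hq hfix]

lemma N_retr_le {q q' : S.E} (hq : q ∈ S.K) (hq' : q' ∈ S.K) :
    S.next.N (S.retr q - S.retr q') ≤ S.N (q - q') := by
  change S.nextN (S.seq _ _ - S.seq _ _) ≤ _
  rw [seq, seq, umk_sub]
  exact le_of_tendsto' (S.tendsto_nextN _) fun k =>
    S.res_compare k (S.res_mem k q) (S.res_mem k q') (S.res_eq k hq) (S.res_eq k hq')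

lemma Hom.map_retr {S S' : Sys.{u} a b δ} (f : Hom S S') {q : S.E} (hq : q ∈ S.K) :
    f.next.toMap (S.retr q) = S'.retr (f.toMap q) := by
  change umap f.toMap (umk _ _) = _
  rw [umap_umk]
  refine umk_eq_iff.mpr (tendsto_const_nhds.congr fun k => ?_)
  have h : f.toMap (S.res k q) = S'.res k (f.toMap q) := by
    have e : f.toMap (S.res k q) = (1 / (k + 1 : ℝ)) • f.toMap q +
        (1 - 1 / (k + 1 : ℝ)) • S'.T (f.toMap (S.res k q)) := by
      rw [f.map_T _ (S.res_mem k q)]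
      conv_lhs => rw [S.res_eq k hq]
      rw [map_add, map_smul, map_smul]
    refine S'.eq_of_N_sub_le_zero ((S'.res_compare k (f.map_K _ (S.res_mem k q)) (S'.res_mem k _) e
      (S'.res_eq k (f.map_K _ hq))).trans_eq (by rw [sub_self, S'.N_zero]))
  rw [h, sub_self, norm_zero]

end Sys

end

end Vale.Agent.P079
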