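import Vale.Agent.P079.System

/-!
P079: along the averaged resolvent iteration the weak-limit projections cut the last point into
martingale differences of size `2 / n`, so uniform convexity makes it almost a point of the base.
-/

namespace Vale.Agent.P079

noncomputable section

universe u

namespace Sys

variable {a b : ℝ} {δ : ℝ → ℝ}

/-- The averaging step at stage `j`. -/
def aff (S : Sys.{u} a b δ) (j : ℕ) (v : S.E) : S.E :=
  (1 - 1 / (j + 1 : ℝ)) • v + (1 / (j + 1 : ℝ)) • S.x0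

/-- The conditional value after `r` more stages. -/
def psi : ℕ → ℕ → (S : Sys.{u} a b δ) → S.E → S.E
  | 0, _, _, v => v
  | r + 1, j, S, v => S.lim (psi r (j + 1) S.next (S.retr (S.aff j v)))

lemma aff_mem (S : Sys.{u} a b δ) (j : ℕ) {v : S.E} (hv : v ∈ S.K) : S.aff j v ∈ S.K :=
  S.conv hv S.x0_mem (sub_nonneg.mpr (by
    rw [div_le_one (by positivity)]; linarith [j.cast_nonneg (α := ℝ)])) (by positivity) (by ring)

lemma Hom.map_aff {S S' : Sys.{u} a b δ} (f : Hom S S') (j : ℕ) (v : S.E) :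
    f.toMap (S.aff j v) = S'.aff j (f.toMap v) := by
  simp only [aff, map_add, map_smul, f.map_x0]

lemma psi_mem : ∀ (r j : ℕ) (S : Sys.{u} a b δ) {v : S.E}, v ∈ S.K → psi r j S v ∈ S.K
  | 0, _, _, _, hv => hv
  | r + 1, j, S, v, _ => S.lim_mem (psi_mem r (j + 1) S.next (S.retr_mem _))

lemma psi_lip : ∀ (r j : ℕ) (S : Sys.{u} a b δ) {v w : S.E}, v ∈ S.K → w ∈ S.K →
    ((j : ℝ) + r) * S.N (psi r j S v - psi r j S w) ≤ j * S.N (v - w)
  | 0, j, S, v, w, _, _ => by simp [psi]
  | r + 1, j, S, v, w, hv, hw => by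
    have ih := psi_lip r (j + 1) S.next (S.retr_mem (S.aff j v)) (S.retr_mem (S.aff j w))
    have h1 : S.N (psi (r + 1) j S v - psi (r + 1) j S w) ≤
        S.next.N (psi r (j + 1) S.next (S.retr (S.aff j v)) -
          psi r (j + 1) S.next (S.retr (S.aff j w))) := by
      simp only [psi, ← map_sub]
      exact S.N_lim_le _
    have h2 := S.N_retr_le (S.aff_mem j hv) (S.aff_mem j hw)
    have h3 : S.aff j v - S.aff j w = (1 - 1 / (j + 1 : ℝ)) • (v - w) := by
      simp only [aff, smul_sub]; abel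
    have hc : (1 - 1 / (j + 1 : ℝ)) = j / (j + 1 : ℝ) := by field_simp; ring
    rw [h3, S.N_smul, hc, abs_of_nonneg (by positivity), div_mul_eq_mul_div,
      le_div_iff₀ (by positivity)] at h2
    push_cast at ih ⊢
    have h4 : ((j : ℝ) + (r + 1)) * S.N (psi (r + 1) j S v - psi (r + 1) j S w) ≤
        ((j : ℝ) + 1 + r) * S.next.N (psi r (j + 1) S.next (S.retr (S.aff j v)) -
          psi r (j + 1) S.next (S.retr (S.aff j w))) := by
      rw [show (j : ℝ) + (r + 1) = j + 1 + r by ring]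
      exact mul_le_mul_of_nonneg_left h1 (by positivity)
    have h5 := h4.trans ih
    linarith

lemma Hom.map_psi : ∀ (r j : ℕ) {S S' : Sys.{u} a b δ} (f : Hom S S') {v : S.E}, v ∈ S.K →
    f.toMap (psi r j S v) = psi r j S' (f.toMap v)
  | 0, _, _, _, _, _, _ => rfl
  | r + 1, j, S, S', f, v, hv => by
    simp only [psi]
    rw [← f.lim_next, Hom.map_psi r (j + 1) f.next (S.retr_mem _), f.map_retr (S.aff_mem j hv),
      f.map_aff]

/-- From stage `j`, after `L` stages, the conditional value moves by at most `C` over the total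
number of stages. -/
def Block (a b : ℝ) (δ : ℝ → ℝ) (L : ℕ) (C : ℝ) : Prop :=
  ∀ (j : ℕ) (S : Sys.{u} a b δ) (v : S.E) (r : ℕ), v ∈ S.K → (j = 0 ∨ S.T v = v) →
    ∃ (S' : Sys.{u} a b δ) (ι : Hom S S') (P : S'.E →ₗ[ℝ] S.E) (z : S'.E),
      (∀ x, ‖P x‖ ≤ ‖x‖) ∧ (∀ x, P (ι.toMap x) = x) ∧ z ∈ S'.K ∧ S'.T z = z ∧
      P (psi r (j + L) S' z) = psi (L + r) j S v ∧
      ((j : ℝ) + L + r) * ‖psi r (j + L) S' z - ι.toMap (psi (L + r) j S v)‖ ≤ C

lemma block_one : Block.{u} a b δ 1 (2 / a) := by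
  intro j S v r hv hj
  set z := S.retr (S.aff j v)
  refine ⟨S.next, S.diag, S.lim, z, S.norm_lim_le, S.lim_diag, S.retr_mem _,
    S.retr_fixed (S.aff_mem j hv), ?_, ?_⟩
  · rw [Nat.add_comm 1 r]; rfl
  · rw [Nat.add_comm 1 r]
    set y := psi r (j + 1) S.next z
    have hu : psi (r + 1) j S v = S.lim y := rfl
    rw [hu]
    set u := psi r (j + 1) S v
    have hιu : S.diag.toMap u = psi r (j + 1) S.next (S.diag.toMap v) := S.diag.map_psi r (j + 1) hv
    have hz : S.next.N (z - S.diag.toMap v) ≤ 1 / (j + 1 : ℝ) := by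
      rcases hj with rfl | hfix
      · simpa using S.next.diam _ (S.retr_mem _) _ (S.diag.map_K v hv)
      · rw [← S.retr_of_fixed hv hfix]
        refine (S.N_retr_le (S.aff_mem j hv) hv).trans ?_
        rw [show S.aff j v - v = (1 / (j + 1 : ℝ)) • (S.x0 - v) by
          simp only [aff, sub_smul, one_smul, smul_sub]; abel, S.N_smul,
          abs_of_nonneg (show (0 : ℝ) ≤ 1 / (j + 1 : ℝ) by positivity)]
        exact mul_le_of_le_one_right (by positivity) (S.diam _ S.x0_mem _ hv)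
    have hlip := psi_lip r (j + 1) S.next (S.retr_mem (S.aff j v)) (S.diag.map_K v hv)
    rw [← hιu] at hlip
    push_cast at hlip ⊢
    have h1 : ((j : ℝ) + 1 + r) * S.next.N (y - S.diag.toMap u) ≤ 1 := by
      refine hlip.trans ?_
      have := mul_le_mul_of_nonneg_left hz (show (0 : ℝ) ≤ (j : ℝ) + 1 by positivity)
      rwa [mul_one_div, div_self (by positivity)] at this
    have h2 : ‖y - S.diag.toMap (S.lim y)‖ ≤ 2 * ‖y - S.diag.toMap u‖ := by
      have e : y - S.diag.toMap (S.lim y) =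
          (y - S.diag.toMap u) - S.diag.toMap (S.lim (y - S.diag.toMap u)) := by
        rw [map_sub S.lim, S.lim_diag, map_sub]; abel
      rw [e]
      refine (norm_sub_le _ _).trans ?_
      rw [S.diag.toMap.norm_map]
      linarith [S.norm_lim_le (y - S.diag.toMap u)]
    have h3 := mul_le_mul_of_nonneg_left (S.next.lower (y - S.diag.toMap u))
      (show (0 : ℝ) ≤ (j : ℝ) + 1 + r by positivity)
    have h4 := mul_le_mul_of_nonneg_left h2 (show (0 : ℝ) ≤ (j : ℝ) + 1 + r by positivity)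
    have h5 : a * (((j : ℝ) + 1 + r) * ‖y - S.diag.toMap (S.lim y)‖) ≤ 2 := by
      have := mul_le_mul_of_nonneg_left h4 S.ha.le
      linarith
    rw [le_div_iff₀ S.ha]
    linarith

lemma block_double {L : ℕ} {C : ℝ} (hC : 0 ≤ C) (h : Block.{u} a b δ L C) :
    Block.{u} a b δ (L + L) (rho δ * C) := by
  intro j S v r hv hj
  obtain ⟨S1, ι1, P1, z1, hP1, hPι1, hz1, hfix1, he1, hb1⟩ := h j S v (L + r) hv hj
  obtain ⟨S2, ι2, P2, z2, hP2, hPι2, hz2, hfix2, he2, hb2⟩ := h (j + L) S1 z1 r hz1 (Or.inr hfix1)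
  rw [show L + L + r = L + (L + r) by ring, show j + (L + L) = j + L + L by ring]
  refine ⟨S2, ι1.trans ι2, P1.comp P2, z2, fun x => (hP1 _).trans (hP2 x), fun x => ?_, hz2, hfix2,
    ?_, ?_⟩
  · change P1 (P2 (ι2.toMap (ι1.toMap x))) = x
    rw [hPι2, hPι1]
  · change P1 (P2 _) = _
    rw [he2, he1]
  set w1 := psi (L + r) (j + L) S1 z1
  set w2 := psi r (j + L + L) S2 z2
  set y := psi (L + (L + r)) j S v
  change _ * ‖w2 - ι2.toMap (ι1.toMap y)‖ ≤ _
  set A : S2.E := ι2.toMap w1 - ι2.toMap (ι1.toMap y)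
  set B : S2.E := w2 - ι2.toMap w1
  have hA : ‖A‖ = ‖w1 - ι1.toMap y‖ := by
    simp only [A]; rw [← map_sub, ι2.toMap.norm_map]
  have hmono : ‖A‖ ≤ ‖A - B‖ := by
    have e : P2 (A - B) = w1 - ι1.toMap y := by
      simp only [A, B, map_sub, hPι2, he2]; abel
    calc ‖A‖ = ‖P2 (A - B)‖ := by rw [hA, e]
      _ ≤ _ := hP2 _
  push_cast at hb1 hb2 ⊢
  rcases (show (0 : ℝ) ≤ (j : ℝ) + L + L + r by positivity).eq_or_lt with hn | hn
  · rw [show (j : ℝ) + (L + L) + r = 0 by linarith, zero_mul]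
    exact mul_nonneg (rho_pos δ).le hC
  set n : ℝ := (j : ℝ) + L + L + r with hn'
  have hAb : ‖A‖ ≤ C / n := by
    rw [hA, le_div_iff₀ hn]; linarith
  have hBb : ‖B‖ ≤ C / n := by
    rw [le_div_iff₀ hn]; linarith
  have hr := norm_add_le_rho S2.modulus (div_nonneg hC hn.le) hAb hBb hmono
  rw [show w2 - ι2.toMap (ι1.toMap y) = A + B by simp only [A, B]; abel,
    show (j : ℝ) + (L + L) + r = n by rw [hn']; ring]
  calc n * ‖A + B‖ ≤ n * (rho δ * (C / n)) := mul_le_mul_of_nonneg_left hr hn.le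
    _ = rho δ * C := by field_simp

lemma block_pow (ha : 0 < a) (m : ℕ) : Block.{u} a b δ (2 ^ m) (rho δ ^ m * (2 / a)) := by
  induction m with
  | zero => simpa using block_one
  | succ m ih =>
    have h := block_double (mul_nonneg (pow_nonneg (rho_pos δ).le m) (by positivity)) ih
    rwa [← mul_assoc, ← pow_succ', show 2 ^ m + 2 ^ m = 2 ^ (m + 1) by rw [pow_succ]; ring] at h

/-- An exact fixed point of an extension lies as close as we like to a point of the base. -/
theorem exists_close_fixed (S : Sys.{u} a b δ) {ε : ℝ} (hε : 0 < ε) :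
    ∃ (S' : Sys.{u} a b δ) (ι : Hom S S') (z : S'.E) (x : S.E), z ∈ S'.K ∧ S'.T z = z ∧ x ∈ S.K ∧
      S'.N (z - ι.toMap x) ≤ ε := by
  have hlt : rho δ / 2 < 1 := by linarith [rho_lt S.modulus]
  have htend := ((tendsto_pow_atTop_nhds_zero_of_lt_one (by linarith [rho_pos δ]) hlt).const_mul
    (|b| * (2 / a)))
  rw [mul_zero] at htend
  obtain ⟨m, hm⟩ := (htend.eventually (eventually_le_nhds hε)).exists
  obtain ⟨S', ι, P, z, -, -, hz, hfix, -, hb⟩ :=
    block_pow S.ha m 0 S S.x0 0 S.x0_mem (Or.inl rfl)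
  refine ⟨S', ι, z, psi (2 ^ m + 0) 0 S S.x0, hz, hfix, psi_mem _ _ _ S.x0_mem, ?_⟩
  simp only [psi, Nat.cast_zero, zero_add, add_zero, Nat.cast_pow, Nat.cast_ofNat] at hb ⊢
  rw [← le_div_iff₀' (by positivity)] at hb
  refine (S'.upper _).trans (le_trans ?_ hm)
  refine (mul_le_mul_of_nonneg_right (le_abs_self b) (norm_nonneg _)).trans ?_
  rw [mul_assoc]
  refine mul_le_mul_of_nonneg_left (hb.trans_eq ?_) (abs_nonneg b)
  rw [div_pow]
  ring

/-- Goebel-Karlovitz: in an extension of a minimal system a fixed point stays away from the base. -/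
theorem minimal_diam_le (S : Sys.{u} a b δ)
    (hmin : ∀ L ⊆ S.K, L.Nonempty → IsClosed L → Convex ℝ L → Set.MapsTo S.T L L → L = S.K)
    {S' : Sys.{u} a b δ} (ι : Hom S S') {z : S'.E} (hz : z ∈ S'.K) (hfix : S'.T z = z)
    {x : S.E} (hx : x ∈ S.K) {p q : S.E} (hp : p ∈ S.K) (hq : q ∈ S.K) :
    S.N (p - q) ≤ 2 * S'.N (z - ι.toMap x) := by
  set r := S'.N (z - ι.toMap x)
  set L : Set S.E := S.K ∩ {y | S'.N (z - ι.toMap y) ≤ r}
  have hcont : Continuous S'.N := continuous_iff_continuousAt.mpr fun y =>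
    S'.tendsto_N (f := id) (tendsto_iff_norm_sub_tendsto_zero.mp Filter.tendsto_id)
  have hL : L = S.K := by
    refine hmin L Set.inter_subset_left ⟨x, hx, le_refl r⟩
      (S.closed.inter (isClosed_le (hcont.comp
        (continuous_const.sub ι.toMap.continuous)) continuous_const)) ?_ ?_
    · intro y hy w hw c e hc he hce
      refine ⟨S.conv hy.1 hw.1 hc he hce, ?_⟩
      have e1 : z - ι.toMap (c • y + e • w) = c • (z - ι.toMap y) + e • (z - ι.toMap w) := by
        conv_lhs => rw [← one_smul ℝ z, ← hce, add_smul, map_add, map_smul, map_smul]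
        rw [smul_sub, smul_sub]; abel
      simp only [Set.mem_ofPred_eq, e1]
      have h1 := S'.N_add (c • (z - ι.toMap y)) (e • (z - ι.toMap w))
      rw [S'.N_smul, S'.N_smul, abs_of_nonneg hc, abs_of_nonneg he] at h1
      have h2 := mul_le_mul_of_nonneg_left hy.2 hc
      have h3 := mul_le_mul_of_nonneg_left hw.2 he
      have h4 : c * r + e * r = r := by rw [← add_mul, hce, one_mul]
      linarith
    · intro y hy
      refine ⟨S.maps hy.1, ?_⟩
      change S'.N (z - ι.toMap (S.T y)) ≤ r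
      refine le_trans ?_ (show S'.N (z - ι.toMap y) ≤ r from hy.2)
      rw [← ι.map_T y hy.1]
      conv_lhs => rw [← hfix]
      exact S'.nonexp _ hz _ (ι.map_K y hy.1)
  have hall : ∀ y ∈ S.K, S'.N (z - ι.toMap y) ≤ r := fun y hy => (hL.symm ▸ hy : y ∈ L).2
  have h := S'.N_triangle (ι.toMap p) z (ι.toMap q)
  rw [S'.N_sub_comm (ι.toMap p) z, ← map_sub, ι.map_N] at h
  linarith [hall p hp, hall q hq]

end Sys

end

end Vale.Agent.P079
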