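import Vale.Agent.P079.Convex

/-!
P079: ultrapowers, their norms and weak limits.
-/

namespace Vale.Agent.P079

open Filter Topology Set BoundedContinuousFunction
open scoped BoundedContinuousFunction

noncomputable section

universe u v

variable (Y : Type u) [NormedAddCommGroup Y] [NormedSpace ℝ Y]

/-- Sequences tending to zero along the ultrafilter. -/
def null : Submodule ℝ (ℕ →ᵇ Y) where
  carrier := {f | Tendsto (fun n => ‖f n‖) (uf : Filter ℕ) (𝓝 0)}
  add_mem' {f g} hf hg := squeeze_zero (fun n => norm_nonneg _)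
    (fun n => norm_add_le (f n) (g n)) (by simpa using hf.add hg)
  zero_mem' := by simpa using tendsto_const_nhds
  smul_mem' c f hf := squeeze_zero (fun n => norm_nonneg _)
    (fun n => (norm_smul c (f n)).le) (by simpa using hf.const_mul ‖c‖)

instance null_closed : IsClosed (null Y : Set (ℕ →ᵇ Y)) := by
  rw [← closure_subset_iff_isClosed]
  intro f hf
  change Tendsto (fun n => ‖f n‖) (uf : Filter ℕ) (𝓝 0)
  rw [Metric.tendsto_nhds]
  intro ε hε
  obtain ⟨g, hg, hfg⟩ := Metric.mem_closure_iff.1 hf (ε / 2) (by positivity)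
  filter_upwards [Metric.tendsto_nhds.1 hg (ε / 2) (by positivity)] with n hn
  simp only [Real.dist_eq, sub_zero, abs_norm] at hn ⊢
  rw [dist_eq_norm] at hfg
  have h1 : ‖f n - g n‖ ≤ ‖f - g‖ := by simpa using (f - g).norm_coe_le_norm n
  linarith [norm_le_norm_add_norm_sub' (f n) (g n)]

/-- The ultrapower. -/
abbrev Ultra : Type u := (ℕ →ᵇ Y) ⧸ null Y

instance Ultra.instNormedAddCommGroup : NormedAddCommGroup (Ultra Y) :=
  Submodule.Quotient.normedAddCommGroup (null Y)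

instance Ultra.instCompleteSpace [CompleteSpace Y] : CompleteSpace (Ultra Y) :=
  Submodule.Quotient.completeSpace (null Y)

variable {Y}

/-- The class of a bounded sequence. -/
def umk (f : ℕ → Y) (hf : ∃ R, ∀ n, ‖f n‖ ≤ R) : Ultra Y :=
  Submodule.Quotient.mk (ofNormedAddCommGroupDiscrete f (Classical.choose hf)
    (Classical.choose_spec hf))

/-- A representative. -/
def urep (x : Ultra Y) : ℕ → Y := fun n => (Function.surjInv (Submodule.Quotient.mk_surjective _) x) n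

lemma urep_bdd (x : Ultra Y) : ∃ R, ∀ n, ‖urep x n‖ ≤ R :=
  ⟨_, fun n => (Function.surjInv (Submodule.Quotient.mk_surjective _) x).norm_coe_le_norm n⟩

lemma umk_eq_iff {f g : ℕ → Y} {hf : ∃ R, ∀ n, ‖f n‖ ≤ R} {hg : ∃ R, ∀ n, ‖g n‖ ≤ R} :
    umk f hf = umk g hg ↔ Tendsto (fun n => ‖f n - g n‖) (uf : Filter ℕ) (𝓝 0) := by
  rw [umk, umk, Submodule.Quotient.eq]
  exact Iff.rfl

lemma umk_urep (x : Ultra Y) : umk (urep x) (urep_bdd x) = x := by
  conv_rhs => rw [← Function.surjInv_eq (Submodule.Quotient.mk_surjective (null Y)) x]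
  rw [umk]
  congr 1

lemma umk_surjective (x : Ultra Y) : ∃ f hf, umk f hf = x := ⟨_, _, umk_urep x⟩

lemma urep_umk {f : ℕ → Y} {hf : ∃ R, ∀ n, ‖f n‖ ≤ R} :
    Tendsto (fun n => ‖urep (umk f hf) n - f n‖) (uf : Filter ℕ) (𝓝 0) :=
  umk_eq_iff.mp (umk_urep (umk f hf))

lemma bdd_add {f g : ℕ → Y} (hf : ∃ R, ∀ n, ‖f n‖ ≤ R) (hg : ∃ R, ∀ n, ‖g n‖ ≤ R) :
    ∃ R, ∀ n, ‖f n + g n‖ ≤ R :=
  ⟨_, fun n => norm_add_le_of_le (hf.choose_spec n) (hg.choose_spec n)⟩

lemma bdd_sub {f g : ℕ → Y} (hf : ∃ R, ∀ n, ‖f n‖ ≤ R) (hg : ∃ R, ∀ n, ‖g n‖ ≤ R) :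
    ∃ R, ∀ n, ‖f n - g n‖ ≤ R :=
  ⟨_, fun n => norm_sub_le_of_le (hf.choose_spec n) (hg.choose_spec n)⟩

lemma bdd_smul {f : ℕ → Y} (c : ℝ) (hf : ∃ R, ∀ n, ‖f n‖ ≤ R) : ∃ R, ∀ n, ‖c • f n‖ ≤ R :=
  ⟨‖c‖ * hf.choose, fun n => (norm_smul c (f n)).le.trans
    (mul_le_mul_of_nonneg_left (hf.choose_spec n) (norm_nonneg c))⟩

lemma umk_add {f g : ℕ → Y} (hf : ∃ R, ∀ n, ‖f n‖ ≤ R) (hg : ∃ R, ∀ n, ‖g n‖ ≤ R) :
    umk f hf + umk g hg = umk (fun n => f n + g n) (bdd_add hf hg) := rfl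

lemma umk_sub {f g : ℕ → Y} (hf : ∃ R, ∀ n, ‖f n‖ ≤ R) (hg : ∃ R, ∀ n, ‖g n‖ ≤ R) :
    umk f hf - umk g hg = umk (fun n => f n - g n) (bdd_sub hf hg) := rfl

lemma umk_smul {f : ℕ → Y} (c : ℝ) (hf : ∃ R, ∀ n, ‖f n‖ ≤ R) :
    c • umk f hf = umk (fun n => c • f n) (bdd_smul c hf) := rfl

/-- The quotient norm is the limit of the norms. -/
lemma tendsto_norm {f : ℕ → Y} (hf : ∃ R, ∀ n, ‖f n‖ ≤ R) :
    Tendsto (fun n => ‖f n‖) (uf : Filter ℕ) (𝓝 ‖umk f hf‖) := by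
  classical
  have hL := tendsto_ulim (g := fun n => ‖f n‖) (R := hf.choose) fun n => by
    rw [abs_norm]; exact hf.choose_spec n
  set L := ulim fun n => ‖f n‖
  suffices h : ‖umk f hf‖ = L by rw [h]; exact hL
  have hL0 : 0 ≤ L := ge_of_tendsto hL (Eventually.of_forall fun n => norm_nonneg _)
  refine le_antisymm (le_of_forall_pos_le_add fun ε hε => ?_) (le_of_forall_pos_le_add fun ε hε => ?_)
  · have hg : ∀ n, ‖(if ‖f n‖ ≤ L + ε then f n else 0 : Y)‖ ≤ L + ε := fun n => by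
      split_ifs with hn
      · exact hn
      · rw [norm_zero]; linarith
    have e : umk f hf = umk (fun n => if ‖f n‖ ≤ L + ε then f n else 0) ⟨_, hg⟩ := by
      rw [umk_eq_iff]
      refine tendsto_const_nhds.congr' ?_
      filter_upwards [hL.eventually (eventually_le_nhds (lt_add_of_pos_right L hε))] with n hn
      simp [hn]
    rw [e]
    exact (Submodule.Quotient.norm_mk_le (null Y) _).trans
      ((BoundedContinuousFunction.norm_le (by linarith)).2 hg)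
  · obtain ⟨g, hg, hgn⟩ : ∃ g : ℕ →ᵇ Y, (Submodule.Quotient.mk g : Ultra Y) = umk f hf ∧
        ‖g‖ < ‖umk f hf‖ + ε := QuotientAddGroup.norm_lt_iff.1 (lt_add_of_pos_right _ hε)
    rw [umk, Submodule.Quotient.eq] at hg
    have h0 : Tendsto (fun n => ‖g n - f n‖ + ‖g‖) (uf : Filter ℕ) (𝓝 (0 + ‖g‖)) := hg.add_const _
    have := le_of_tendsto_of_tendsto' hL h0 fun n => by
      have := g.norm_coe_le_norm n
      have := norm_sub_norm_le (f n) (g n)
      rw [norm_sub_rev] at this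
      linarith
    linarith

/-- The constant sequence. -/
def diagU : Y →ₗᵢ[ℝ] Ultra Y where
  toFun x := umk (fun _ => x) ⟨‖x‖, fun _ => le_rfl⟩
  map_add' _ _ := rfl
  map_smul' _ _ := rfl
  norm_map' x := tendsto_nhds_unique (tendsto_norm _) tendsto_const_nhds

lemma diagU_apply (x : Y) : diagU x = umk (fun _ => x) ⟨‖x‖, fun _ => le_rfl⟩ := rfl

lemma modulus_ultra {δ : ℝ → ℝ} (hY : Modulus δ Y) : Modulus δ (Ultra Y) := by
  refine ⟨hY.1, fun ε hε M hM x y hx hy hxy => ?_⟩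
  obtain ⟨f, hf, rfl⟩ := umk_surjective x
  obtain ⟨g, hg, rfl⟩ := umk_surjective y
  rw [umk_sub] at hxy
  rw [umk_add]
  refine le_of_forall_pos_le_add fun θ hθ => ?_
  set η := min (min (θ / 2) ((‖umk (fun n => f n - g n) (bdd_sub hf hg)‖ - ε * M) / (2 * ε))) M
    with hη
  have hη0 : 0 < η := lt_min (lt_min (by linarith) (div_pos (sub_pos.mpr hxy) (by linarith))) hM
  have hη1 : ε * η < ‖umk (fun n => f n - g n) (bdd_sub hf hg)‖ - ε * M := by
    have h1 : η ≤ (‖umk (fun n => f n - g n) (bdd_sub hf hg)‖ - ε * M) / (2 * ε) :=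
      (min_le_left _ _).trans (min_le_right _ _)
    rw [le_div_iff₀ (by linarith)] at h1
    nlinarith
  have hη2 : η ≤ θ / 2 := (min_le_left _ _).trans (min_le_left _ _)
  have hle : ‖umk (fun n => f n + g n) (bdd_add hf hg)‖ ≤ (2 - δ ε) * (M + η) := by
    refine le_of_tendsto (tendsto_norm _) ?_
    filter_upwards [(tendsto_norm hf).eventually (eventually_le_nhds (show ‖umk f hf‖ < M + η by
        linarith)), (tendsto_norm hg).eventually (eventually_le_nhds (show ‖umk g hg‖ < M + η by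
        linarith)), (tendsto_norm (bdd_sub hf hg)).eventually (eventually_gt_nhds
        (show ε * (M + η) < ‖umk (fun n => f n - g n) (bdd_sub hf hg)‖ by linarith))] with n h1 h2 h3
    exact hY.2 ε hε (M + η) (by linarith) _ _ h1 h2 h3
  have h3 : 0 < δ ε * η := mul_pos (hY.1 ε hε) hη0
  linarith

variable [CompleteSpace Y] {δ : ℝ → ℝ}

open Classical in
/-- The weak limit along the ultrafilter. -/
def wlim (x : Ultra Y) : Y :=
  if h : ∃ p : Y, (∀ φ : StrongDual ℝ Y, φ p = ulim fun n => φ (urep x n)) ∧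
      ∀ C : Set Y, IsClosed C → Convex ℝ C → (∀ᶠ n in (uf : Filter ℕ), urep x n ∈ C) → p ∈ C
  then h.choose else 0

lemma wlim_spec (hY : Modulus δ Y) (x : Ultra Y) :
    (∀ φ : StrongDual ℝ Y, φ (wlim x) = ulim fun n => φ (urep x n)) ∧
      ∀ C : Set Y, IsClosed C → Convex ℝ C → (∀ᶠ n in (uf : Filter ℕ), urep x n ∈ C) →
        wlim x ∈ C := by
  obtain ⟨R, hR⟩ := urep_bdd x
  have h := exists_weakLimit hY (urep x) hR
  rw [wlim, dif_pos h]
  exact h.choose_spec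

lemma dual_wlim (hY : Modulus δ Y) (φ : StrongDual ℝ Y) {f : ℕ → Y}
    {hf : ∃ R, ∀ n, ‖f n‖ ≤ R} :
    Tendsto (fun n => φ (f n)) (uf : Filter ℕ) (𝓝 (φ (wlim (umk f hf)))) := by
  obtain ⟨R, hR⟩ := urep_bdd (umk f hf)
  rw [(wlim_spec hY _).1 φ]
  have h1 := tendsto_ulim (g := fun n => φ (urep (umk f hf) n)) (R := ‖φ‖ * R) fun n =>
    (φ.le_opNorm _).trans (mul_le_mul_of_nonneg_left (hR n) (norm_nonneg _))
  have h2 : Tendsto (fun n => φ (f n) - φ (urep (umk f hf) n)) (uf : Filter ℕ) (𝓝 0) := by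
    refine squeeze_zero_norm (fun n => ?_)
      (by simpa using (urep_umk (f := f) (hf := hf)).const_mul ‖φ‖)
    rw [← map_sub]
    exact (φ.le_opNorm _).trans_eq (by rw [norm_sub_rev])
  simpa using h2.add h1

lemma eq_of_dual {p q : Y} (h : ∀ φ : StrongDual ℝ Y, φ p = φ q) : p = q := by
  refine sub_eq_zero.mp ((norm_eq_zero).mp ?_)
  obtain ⟨φ, -, hφ⟩ := exists_dual_vector'' ℝ (p - q)
  rw [map_sub, h, sub_self] at hφ
  simpa using hφ.symm

lemma wlim_diagU (hY : Modulus δ Y) (x : Y) : wlim (diagU x) = x :=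
  eq_of_dual fun φ => tendsto_nhds_unique (dual_wlim hY φ) tendsto_const_nhds

/-- The weak limit as a linear map. -/
def wlimL (hY : Modulus δ Y) : Ultra Y →ₗ[ℝ] Y where
  toFun := wlim
  map_add' x y := by
    obtain ⟨f, hf, rfl⟩ := umk_surjective x
    obtain ⟨g, hg, rfl⟩ := umk_surjective y
    rw [umk_add]
    refine eq_of_dual fun φ => tendsto_nhds_unique (dual_wlim hY φ) ?_
    simp only [map_add]
    exact (dual_wlim hY φ).add (dual_wlim hY φ)
  map_smul' c x := by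
    obtain ⟨f, hf, rfl⟩ := umk_surjective x
    rw [umk_smul, RingHom.id_apply]
    refine eq_of_dual fun φ => tendsto_nhds_unique (dual_wlim hY φ) ?_
    simp only [map_smul]
    exact (dual_wlim hY φ).const_smul c

lemma wlimL_apply (hY : Modulus δ Y) (x : Ultra Y) : wlimL hY x = wlim x := rfl

lemma norm_wlim_le (hY : Modulus δ Y) (x : Ultra Y) : ‖wlim x‖ ≤ ‖x‖ := by
  refine le_of_forall_pos_le_add fun ε hε => ?_
  have h := tendsto_norm (urep_bdd x)
  rw [umk_urep] at h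
  simpa using (wlim_spec hY x).2 (Metric.closedBall 0 (‖x‖ + ε)) Metric.isClosed_closedBall
    (convex_closedBall 0 (‖x‖ + ε))
    ((h.eventually (eventually_le_nhds (lt_add_of_pos_right _ hε))).mono fun n hn => by simpa using hn)

variable {Z : Type v} [NormedAddCommGroup Z] [NormedSpace ℝ Z]

/-- A linear isometry applied to the terms. -/
def umap (ι : Y →ₗᵢ[ℝ] Z) (x : Ultra Y) : Ultra Z :=
  umk (fun n => ι (urep x n)) ⟨(urep_bdd x).choose, fun n => by
    rw [ι.norm_map]; exact (urep_bdd x).choose_spec n⟩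

lemma bdd_map (ι : Y →ₗᵢ[ℝ] Z) {f : ℕ → Y} (hf : ∃ R, ∀ n, ‖f n‖ ≤ R) :
    ∃ R, ∀ n, ‖ι (f n)‖ ≤ R :=
  ⟨hf.choose, fun n => by rw [ι.norm_map]; exact hf.choose_spec n⟩

lemma umap_umk (ι : Y →ₗᵢ[ℝ] Z) {f : ℕ → Y} (hf : ∃ R, ∀ n, ‖f n‖ ≤ R) :
    umap ι (umk f hf) = umk (fun n => ι (f n)) (bdd_map ι hf) := by
  refine umk_eq_iff.mpr ?_
  simp only [← map_sub, ι.norm_map]
  exact urep_umk

/-- The ultrapower of a linear isometry. -/
def umapL (ι : Y →ₗᵢ[ℝ] Z) : Ultra Y →ₗᵢ[ℝ] Ultra Z where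
  toFun := umap ι
  map_add' x y := by
    obtain ⟨f, hf, rfl⟩ := umk_surjective x
    obtain ⟨g, hg, rfl⟩ := umk_surjective y
    rw [umk_add, umap_umk, umap_umk, umap_umk, umk_add]
    refine umk_eq_iff.mpr ?_
    simp
  map_smul' c x := by
    obtain ⟨f, hf, rfl⟩ := umk_surjective x
    rw [umk_smul, RingHom.id_apply, umap_umk, umap_umk, umk_smul]
    refine umk_eq_iff.mpr ?_
    simp
  norm_map' x := by
    obtain ⟨f, hf, rfl⟩ := umk_surjective x
    change ‖umap ι (umk f hf)‖ = _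
    rw [umap_umk]
    refine tendsto_nhds_unique (tendsto_norm _) ?_
    simp only [ι.norm_map]
    exact tendsto_norm hf

lemma wlim_umap (hY : Modulus δ Y) [CompleteSpace Z] (hZ : Modulus δ Z) (ι : Y →ₗᵢ[ℝ] Z)
    (x : Ultra Y) : wlim (umapL ι x) = ι (wlim x) := by
  obtain ⟨f, hf, rfl⟩ := umk_surjective x
  change wlim (umap ι (umk f hf)) = _
  rw [umap_umk]
  exact eq_of_dual fun φ => tendsto_nhds_unique (dual_wlim hZ φ)
    (dual_wlim hY (φ.comp ι.toContinuousLinearMap))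

end

end Vale.Agent.P079
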